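import Vale.Agent.P275NA.Defs
import Vale.Agent.P275GC.Defs

/-!
P275 (helper18): harmonic metrics on twisted Higgs bundles over a curve. Global definitions and
the global blocks.
-/

set_option linter.all false

open scoped Matrix.Norms.Operator Topology ComplexOrder ContDiff ComplexConjugate
open Filter Set Matrix Complex Metric MeasureTheory
open Vale.Agent.P281Z.Hm (wd wb Mx)
open Vale.Agent.P275GC

noncomputable section

namespace Vale.Agent.P275NA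

variable {C : Type} [TopologicalSpace C] (A : At C)

/-- families of functions of the chart coordinate -/
abbrev Fm (F : Type) : Type := Fin A.N → ℂ → F

/-- families indexed by two charts -/
abbrev Cy (F : Type) : Type := Fin A.N → Fin A.N → ℂ → F

/-- square matrices -/
abbrev Mn (n : ℕ) : Type := Mx (Fin n)

/-- rectangular matrices -/
abbrev Mr (n m : ℕ) : Type := Matrix (Fin n) (Fin m) ℂ

/-- a twisting line bundle `l` with a metric `w` on `l ⊗ K⁻¹`; `l = A.d`, `w = 1` is the usual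
case -/
structure Tw (l : Cy A ℂ) (w : Fm A ℝ) : Prop where
  cc : A.Cc l
  sm : A.Sm ∞ w
  pos : ∀ i, ∀ z ∈ ball (0 : ℂ) A.R, 0 < w i z
  tr : ∀ i j, ∀ z ∈ A.O i j, w i z * normSq (l i j z) = normSq (A.d i j z) * w j (A.tr i j z)

variable {m n r : ℕ}

/-- twisted Higgs bundles -/
structure Hig (l : Cy A ℂ) (g : Cy A (Mn n)) (a : Fm A (Mn n)) : Prop where
  cc : A.Cc g
  hol : A.Hl a
  tr : ∀ i j, ∀ z ∈ A.O i j, a i z * g i j z = l i j z • (g i j z * a j (A.tr i j z))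

/-- homomorphisms of Higgs bundles -/
structure Hom (g : Cy A (Mn m)) (a : Fm A (Mn m)) (g' : Cy A (Mn n)) (a' : Fm A (Mn n))
    (u : Fm A (Mr n m)) : Prop where
  hol : A.Hl u
  tr : ∀ i j, ∀ z ∈ A.O i j, u i z * g i j z = g' i j z * u j (A.tr i j z)
  com : ∀ i, ∀ z ∈ ball (0 : ℂ) A.R, u i z * a i z = a' i z * u i z

/-- the Higgs field times the square root of the weight -/
def sa (w : Fm A ℝ) (a : Fm A (Mn n)) : Fm A (Mn n) := fun i z => ((√(w i z) : ℝ) : ℂ) • a i z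

/-- the density `F + [θ, θ*]` -/
def HK (w : Fm A ℝ) (a h : Fm A (Mn n)) : Fm A (Mn n) := fun i z => hk (h i) (sa A w a i) z

/-- the perturbed equation `K(h) + ε (k⁻¹ h - 1) = 0` -/
def Eqn (w : Fm A ℝ) (a k h : Fm A (Mn n)) (c ε : ℝ) : Prop := ∀ i, ∀ z ∈ ball (0 : ℂ) A.R,
  HK A w a h i z = (A.ρ i z : ℂ) • (((c + ε : ℝ) : ℂ) • 1 - (ε : ℂ) • ((k i z)⁻¹ * h i z))

/-- Hermitian-Einstein metrics -/
def HE (w : Fm A ℝ) (a h : Fm A (Mn n)) (c : ℝ) : Prop := ∀ i, ∀ z ∈ ball (0 : ℂ) A.R,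
  HK A w a h i z = ((c * A.ρ i z : ℝ) : ℂ) • 1

/-- the Einstein constant -/
def ec (g : Cy A (Mn n)) : ℝ := Real.pi * A.degM g / (n * A.int A.ρ)

/-- `t` is a holomorphic frame near `z` of the family of subspaces `S` -/
structure FrAt (S : ℂ → Submodule ℂ (Fin n → ℂ)) (t : ℂ → Mr n r) (z : ℂ) : Prop where
  an : AnalyticAt ℂ t z
  inj : Function.Injective (t z).mulVec
  rg : ∀ᶠ x in 𝓝 z, LinearMap.range (t x).mulVecLin = S x

/-- holomorphic subbundles of rank `r` -/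
structure Sub (g : Cy A (Mn n)) (r : ℕ) (S : Fm A (Submodule ℂ (Fin n → ℂ))) : Prop where
  fr : ∀ i, ∀ z ∈ ball (0 : ℂ) A.R, ∃ t : ℂ → Mr n r, FrAt (S i) t z
  tr : ∀ i j, ∀ z ∈ A.O i j, S i z = (S j (A.tr i j z)).map (g i j z).mulVecLin

/-- invariant families of subspaces -/
def Inv (a : Fm A (Mn n)) (S : Fm A (Submodule ℂ (Fin n → ℂ))) : Prop :=
  ∀ i, ∀ z ∈ ball (0 : ℂ) A.R, ∀ v ∈ S i z, a i z *ᵥ v ∈ S i z

open Classical in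
/-- the trace of the curvature of the induced metric -/
def cvS (r : ℕ) (k : Fm A (Mn n)) (S : Fm A (Submodule ℂ (Fin n → ℂ))) : Fm A ℝ := fun i z =>
  if h : ∃ t : ℂ → Mr n r, FrAt (S i) t z then
    (trace (cv (fun x => (h.choose x)ᴴ * k i x * h.choose x) z)).re else 0

/-- the degree of a subbundle -/
def degS (g : Cy A (Mn n)) (r : ℕ) (S : Fm A (Submodule ℂ (Fin n → ℂ))) : ℝ :=
  Real.pi⁻¹ * A.int (cvS A r (A.mtM g) S)

/-- stability -/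
def Stab (g : Cy A (Mn n)) (a : Fm A (Mn n)) : Prop :=
  ∀ r S, 0 < r → r < n → Sub A g r S → Inv A a S → n * degS A g r S < r * A.degM g

/-- locally uniform convergence on the discs -/
def CvF {F : Type} [UniformSpace F] (us : ℕ → Fm A F) (u : Fm A F) : Prop :=
  ∀ i, TendstoLocallyUniformlyOn (fun k => us k i) (u i) atTop (ball 0 A.R)

/-- locally uniform convergence on the overlaps -/
def CvC {F : Type} [UniformSpace F] (gs : ℕ → Cy A F) (g : Cy A F) : Prop :=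
  ∀ i j, TendstoLocallyUniformlyOn (fun k => gs k i j) (g i j) atTop (A.O i j)

/-- convergent twists -/
structure CvT (ls : ℕ → Cy A ℂ) (ws : ℕ → Fm A ℝ) (l : Cy A ℂ) (w : Fm A ℝ) : Prop where
  tw : ∀ k, Tw A (ls k) (ws k)
  lim : Tw A l w
  cl : CvC A ls l
  cw : CvF A ws w
  bd : ∃ M : ℝ, ∀ k i, ∀ z ∈ ball (0 : ℂ) 1, |lp (fun x => Real.log (ws k i x)) z| ≤ M

/-- a metric in a new frame -/
def fm (Φ h : Fm A (Mn n)) : Fm A (Mn n) := fun i z => (Φ i z)ᴴ * h i z * Φ i z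

/-- an endomorphism in a new frame -/
def fe (Φ a : Fm A (Mn n)) : Fm A (Mn n) := fun i z => (Φ i z)⁻¹ * a i z * Φ i z

/-- a cocycle in a new frame -/
def fc (Φ : Fm A (Mn n)) (g : Cy A (Mn n)) : Cy A (Mn n) := fun i j z =>
  (Φ i z)⁻¹ * g i j z * Φ j (A.tr i j z)

/-- after the changes of frames `Φ k`, the Higgs bundles with metrics `(gs k, as k, hs k)` converge
to `(g, a, h)` -/
structure Lim (gs : ℕ → Cy A (Mn n)) (as hs Φ : ℕ → Fm A (Mn n)) (g : Cy A (Mn n))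
    (a h : Fm A (Mn n)) : Prop where
  an : ∀ k, A.Hl (Φ k)
  ne : ∀ k i, ∀ z ∈ ball (0 : ℂ) A.R, (Φ k i z).det ≠ 0
  bt : ∃ c C' : ℝ, 0 < c ∧ ∀ k i, ∀ z ∈ ball (0 : ℂ) A.R, Btw c C' (fm A (Φ k) (hs k) i z)
  ch : CvF A (fun k => fm A (Φ k) (hs k)) h
  cc : CvF A (fun k i => cn (fm A (Φ k) (hs k) i)) fun i => cn (h i)
  ca : CvF A (fun k => fe A (Φ k) (as k)) a
  cg : CvC A (fun k => fc A (Φ k) (gs k)) g

/-! ### the blocks; `C` is compact, Hausdorff and connected -/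

/-- degrees from arbitrary metrics -/
def DEG : Prop := ∀ (n : ℕ) (g : Cy A (Mn n)) (k : Fm A (Mn n)), A.Cc g → A.MtM ∞ g k →
  A.MtM ∞ g (A.mtM g) ∧ A.Dn (fun i z => (trace (cv (k i) z)).re) ∧
  A.Ct (fun i z => (trace (cv (k i) z)).re) ∧
  Real.pi⁻¹ * A.int (fun i z => (trace (cv (k i) z)).re) = A.degM g ∧
  ∀ r S, Sub A g r S → (∀ i, ∀ z ∈ ball (0 : ℂ) A.R, ∀ t : ℂ → Mr n r, FrAt (S i) t z →
      cvS A r k S i z = (trace (cv (fun x => (t x)ᴴ * k i x * t x) z)).re) ∧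
    A.Dn (cvS A r k S) ∧ A.Ct (cvS A r k S) ∧ Real.pi⁻¹ * A.int (cvS A r k S) = degS A g r S

/-- Chern-Weil: Hermitian-Einstein implies semistable -/
def CW : Prop := ∀ (n : ℕ) (l : Cy A ℂ) (w : Fm A ℝ) (g : Cy A (Mn n)) (a h : Fm A (Mn n)) (c : ℝ),
  0 < n → Tw A l w → Hig A l g a → A.MtM ∞ g h → HE A w a h c → c = ec A g ∧
    ∀ r S, Sub A g r S → Inv A a S → n * degS A g r S ≤ r * A.degM g

/-- the degree of the image of a homomorphism -/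
def KEY : Prop := ∀ (m n : ℕ) (l : Cy A ℂ) (w : Fm A ℝ) (g : Cy A (Mn m)) (a : Fm A (Mn m))
  (g' : Cy A (Mn n)) (a' h : Fm A (Mn n)) (u : Fm A (Mr n m)), Tw A l w → Hig A l g a →
  Hig A l g' a' → A.MtM ∞ g' h → Hom A g a g' a' u →
  ∃ (r s : ℕ) (S : Fm A (Submodule ℂ (Fin m → ℂ))), r + s = m ∧ Sub A g s S ∧ Inv A a S ∧
    (∀ i, ∀ z ∈ ball (0 : ℂ) A.R, (∀ v ∈ S i z, u i z *ᵥ v = 0) ∧
      ∀ᶠ x in 𝓝[≠] z, (u i x).rank = r) ∧
    ∀ β : Fm A ℝ, A.Ct β → (∀ i, ∀ z ∈ ball (0 : ℂ) A.R, ∀ t : Mr n r,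
      Function.Injective t.mulVec → LinearMap.range t.mulVecLin = LinearMap.range (u i z).mulVecLin →
        (trace (pr (h i z) t * HK A w a' h i z)).re ≤ β i z) →
      A.degM g - degS A g s S ≤ Real.pi⁻¹ * A.int β

/-- compactness -/
def CPT : Prop := ∀ (n : ℕ) (ls : ℕ → Cy A ℂ) (ws : ℕ → Fm A ℝ) (l : Cy A ℂ) (w : Fm A ℝ)
  (gs : ℕ → Cy A (Mn n)) (as hs : ℕ → Fm A (Mn n)) (M : ℝ), CvT A ls ws l w →
  (∀ k, Hig A (ls k) (gs k) (as k) ∧ A.MtM ∞ (gs k) (hs k)) →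
  (∀ k i, ∀ z ∈ ball (0 : ℂ) A.R,
    nq (hs k i z) (hs k i z) (HK A (ws k) (as k) (hs k) i z) ≤ (M * A.ρ i z) ^ 2) →
  (∀ k i, ∀ z ∈ ball (0 : ℂ) 1, ∀ q, ‖(as k i z).charpoly.coeff q‖ ≤ M) →
  ∀ (r : ℝ) (h1 : 1 < r) (h2 : r < A.R),
  ∃ (σ : ℕ → ℕ) (Φ : ℕ → Fm A (Mn n)) (g : Cy A (Mn n)) (a h : Fm A (Mn n)), StrictMono σ ∧
    Hig (A.res r h1 h2.le) l g a ∧ (A.res r h1 h2.le).MtM 1 g h ∧
    Lim (A.res r h1 h2.le) (fun k => gs (σ k)) (fun k => as (σ k)) (fun k => hs (σ k)) Φ g a h ∧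
    ∀ Γ : Fin A.N → ℂ × Mn n → Mn n,
      (∀ i, ∀ z ∈ ball (0 : ℂ) r, ContDiffAt ℝ ∞ (Γ i) (z, h i z)) →
      CvF (A.res r h1 h2.le) (fun k => fe A (Φ k) (HK A (ws (σ k)) (as (σ k)) (hs (σ k))))
        (fun i z => Γ i (z, h i z)) →
      (A.res r h1 h2.le).MtM ∞ g h ∧ ∀ i, ∀ z ∈ ball (0 : ℂ) r, HK A w a h i z = Γ i (z, h i z)

/-- openness of the continuity method -/
def OPEN : Prop := ∀ (n : ℕ) (l : Cy A ℂ) (w : Fm A ℝ) (g : Cy A (Mn n)) (a k h : Fm A (Mn n))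
  (c ε : ℝ), Tw A l w → Hig A l g a → A.MtM ∞ g k → A.MtM ∞ g h → 0 < ε → Eqn A w a k h c ε →
  ∀ᶠ ε' in 𝓝 ε, ∃ h', A.MtM ∞ g h' ∧ Eqn A w a k h' c ε'

/-- closedness of the continuity method, and continuity of the metric in the data -/
def CLO : Prop := ∀ (n : ℕ) (ls : ℕ → Cy A ℂ) (ws : ℕ → Fm A ℝ) (l : Cy A ℂ) (w : Fm A ℝ)
  (gs : ℕ → Cy A (Mn n)) (as ks hs : ℕ → Fm A (Mn n)) (g : Cy A (Mn n)) (a k : Fm A (Mn n))
  (εs : ℕ → ℝ) (ε M : ℝ), 0 < n → CvT A ls ws l w →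
  (∀ j, Hig A (ls j) (gs j) (as j) ∧ A.MtM ∞ (gs j) (hs j) ∧ A.MtM ∞ (gs j) (ks j) ∧
    A.degM (gs j) = A.degM g ∧ 0 ≤ εs j ∧ Eqn A (ws j) (as j) (ks j) (hs j) (ec A g) (εs j) ∧
    (0 < εs j → ∀ i, ∀ z ∈ ball (0 : ℂ) 1,
      nq (ks j i z) (ks j i z) (HK A (ws j) (as j) (ks j) i z) ≤ (M * A.ρ i z) ^ 2)) →
  Hig A l g a → A.MtM ∞ g k → Stab A g a → CvC A gs g → CvF A as a → CvF A ks k →
  Tendsto εs atTop (𝓝 ε) → ∀ (r : ℝ) (h1 : 1 < r) (h2 : r < A.R),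
  ∃ (σ : ℕ → ℕ) (s : ℕ → ℝ) (h : Fm A (Mn n)), StrictMono σ ∧ (∀ j, 0 < s j) ∧
    (∀ j, 0 < εs (σ j) → s j = 1) ∧ A.MtM ∞ g h ∧ Eqn A w a k h (ec A g) ε ∧
    CvF (A.res r h1 h2.le) (fun j i z => (s j : ℂ) • hs (σ j) i z) h ∧
    CvF (A.res r h1 h2.le) (fun j i => cn (hs (σ j) i)) fun i => cn (h i)

/-- **Hitchin-Simpson** -/
def EX : Prop := ∀ (n : ℕ) (l : Cy A ℂ) (w : Fm A ℝ) (g : Cy A (Mn n)) (a : Fm A (Mn n)),
  0 < n → Tw A l w → Hig A l g a → Stab A g a → ∃ h, A.MtM ∞ g h ∧ HE A w a h (ec A g)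

/-- stable Higgs bundles are simple; maps to Hermitian-Einstein bundles of the same slope are
isometries up to a constant -/
def UNI : Prop := ∀ (m n : ℕ) (l : Cy A ℂ) (w : Fm A ℝ) (g : Cy A (Mn m)) (a k : Fm A (Mn m))
  (c : ℝ), Tw A l w → Hig A l g a → Stab A g a → A.MtM ∞ g k → HE A w a k c →
  (∀ φ, Hom A g a g a φ → ∃ μ : ℂ, ∀ i, ∀ z ∈ ball (0 : ℂ) A.R, φ i z = μ • 1) ∧
  ∀ (g' : Cy A (Mn n)) (a' h : Fm A (Mn n)) (u : Fm A (Mr n m)), Hig A l g' a' → A.MtM ∞ g' h →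
    HE A w a' h c → Hom A g a g' a' u →
    ∃ μ : ℝ, 0 ≤ μ ∧ ∀ i, ∀ z ∈ ball (0 : ℂ) A.R, (u i z)ᴴ * h i z * u i z = (μ : ℂ) • k i z

end Vale.Agent.P275NA
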