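import Vale.Agent.P281Z.Hm.MCalc
import Mathlib.MeasureTheory.Measure.Lebesgue.Complex
import Mathlib.MeasureTheory.Integral.Bochner.Basic
import Mathlib.Analysis.Normed.Operator.Compact.Basic

/-!
P275 (helper18): harmonic metrics on a curve. Local definitions and the local blocks.
-/

set_option linter.all false

open scoped Matrix.Norms.Operator Topology ComplexOrder ContDiff ComplexConjugate
open Filter Set Matrix Complex Metric MeasureTheory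
open Vale.Agent.P281Z.Hm (wd wb Mx)

noncomputable section

namespace Vale.Agent.P275NA

section calculus

variable {F : Type} [NormedAddCommGroup F] [NormedSpace ℝ F] [NormedSpace ℂ F]

/-- `∂ / ∂ z` -/
abbrev dz (f : ℂ → F) : ℂ → F := wd 1 f

/-- `∂ / ∂ z̄` -/
abbrev db (f : ℂ → F) : ℂ → F := wb 1 f

/-- a quarter of the Laplacian of a real function -/
def lp (u : ℂ → ℝ) (z : ℂ) : ℝ := (db (dz fun x => (u x : ℂ)) z).re

/-- the Cauchy transform, a right inverse of `db` -/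
def cT (g : ℂ → F) (z : ℂ) : F := ((Real.pi : ℂ)⁻¹) • ∫ w : ℂ, w⁻¹ • g (z - w)

/-- the conjugate Cauchy transform, a right inverse of `dz` -/
def cB (g : ℂ → F) (z : ℂ) : F := ((Real.pi : ℂ)⁻¹) • ∫ w : ℂ, (conj w)⁻¹ • g (z - w)

/-- `db u = G` on `U` in the weak sense -/
def Wk (U : Set ℂ) (u G : ℂ → F) : Prop :=
  ∀ φ : ℂ → ℂ, ContDiff ℝ 1 φ → HasCompactSupport φ → tsupport φ ⊆ U →
    ∫ z, db φ z • u z = -∫ z, φ z • G z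

end calculus

section matrices

variable {m n : Type} [Fintype m] [DecidableEq m] [Fintype n] [DecidableEq n]

/-- the Chern connection of the metric `(u, v) ↦ vᴴ h u` in a holomorphic frame -/
def cn (h : ℂ → Mx n) (z : ℂ) : Mx n := (h z)⁻¹ * dz h z

/-- the coefficient of `dz ∧ dz̄` in the curvature -/
def cv (h : ℂ → Mx n) (z : ℂ) : Mx n := -db (cn h) z

/-- the adjoint of `g : (ℂ ^ m, k) → (ℂ ^ n, h)` -/
def ad (k : Mx m) (h : Mx n) (g : Matrix n m ℂ) : Matrix m n ℂ := k⁻¹ * gᴴ * h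

/-- `[a, a*]` -/
def br (h a : Mx n) : Mx n := a * ad h h a - ad h h a * a

/-- the coefficient of `dz ∧ dz̄` in `F + [θ, θ*]`, `θ = a dz` -/
def hk (h a : ℂ → Mx n) (z : ℂ) : Mx n := cv h z + br (h z) (a z)

/-- the square of the Hilbert-Schmidt norm -/
def nq (k : Mx m) (h : Mx n) (g : Matrix n m ℂ) : ℝ := (trace (ad k h g * g)).re

/-- the orthogonal projection onto the span of the independent columns of `t` -/
def pr (h : Mx n) (t : Matrix n m ℂ) : Mx n := t * (tᴴ * h * t)⁻¹ * tᴴ * h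

/-- a metric of class `C²` near `z` -/
structure MetAt (h : ℂ → Mx n) (z : ℂ) : Prop where
  c2 : ContDiffAt ℝ 2 h z
  pos : ∀ᶠ x in 𝓝 z, (h x).PosDef

/-- `c ≤ h ≤ C` -/
def Btw (c C : ℝ) (h : Mx n) : Prop :=
  (h - (c : ℂ) • (1 : Mx n)).PosSemidef ∧ ((C : ℂ) • (1 : Mx n) - h).PosSemidef

end matrices

/-! ### the Cauchy transform (54) -/

/-- bounds, regularity, Cauchy-Pompeiu, weak form; the same for `cB` with `dz` -/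
def CT : Prop := ∀ (F : Type) [NormedAddCommGroup F] [NormedSpace ℝ F] [NormedSpace ℂ F]
  [IsScalarTower ℝ ℂ F] [CompleteSpace F] (R : ℝ), 0 < R → ∃ C : ℝ, 0 ≤ C ∧ ∀ g : ℂ → F,
  Continuous g → (∀ z, R < ‖z‖ → g z = 0) →
    (∀ M, (∀ z, ‖g z‖ ≤ M) → ∀ z z', ‖cT g z‖ ≤ 6 * R * M ∧ ‖cB g z‖ ≤ 6 * R * M ∧
      ‖cT g z - cT g z'‖ ≤ C * M * √‖z - z'‖ ∧ ‖cB g z - cB g z'‖ ≤ C * M * √‖z - z'‖) ∧
    Wk univ (cT g) g ∧
    (∀ k : ℕ∞, ContDiff ℝ k g → ContDiff ℝ k (cT g) ∧ ContDiff ℝ k (cB g)) ∧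
    (ContDiff ℝ 1 g → db (cT g) = g ∧ cT (db g) = g ∧ dz (cT g) = cT (dz g) ∧
      dz (cB g) = g ∧ cB (dz g) = g ∧ db (cB g) = cB (db g))

/-- Weyl's lemma with a right hand side -/
def WEYL : Prop := ∀ (F : Type) [NormedAddCommGroup F] [NormedSpace ℝ F] [NormedSpace ℂ F]
  [IsScalarTower ℝ ℂ F] [CompleteSpace F] (U : Set ℂ) (u G : ℂ → F), IsOpen U →
  ContinuousOn u U → ContinuousOn G U → Wk U u G →
    ((∀ z ∈ U, G z = 0) → DifferentiableOn ℂ u U) ∧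
    ∀ k : ℕ∞, 1 ≤ k → ContDiffOn ℝ k G U → ContDiffOn ℝ k u U ∧ ∀ z ∈ U, db u z = G z

/-- the potential `T ψ T̄` of a continuous function is `C¹` -/
def POT : Prop := ∀ (F : Type) [NormedAddCommGroup F] [NormedSpace ℝ F] [NormedSpace ℂ F]
  [IsScalarTower ℝ ℂ F] [CompleteSpace F] (ψ : ℂ → ℂ) (g : ℂ → F), ContDiff ℝ 1 ψ →
  HasCompactSupport ψ → Continuous g → HasCompactSupport g →
    (ContDiff ℝ 1 (cT fun z => ψ z • cB g z) ∧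
      db (cT fun z => ψ z • cB g z) = (fun z => ψ z • cB g z) ∧
      dz (cT fun z => ψ z • cB g z) = cT fun z => dz ψ z • cB g z + ψ z • g z) ∧
    (ContDiff ℝ 1 (cB fun z => ψ z • cT g z) ∧
      dz (cB fun z => ψ z • cT g z) = (fun z => ψ z • cT g z) ∧
      db (cB fun z => ψ z • cT g z) = cB fun z => db ψ z • cT g z + ψ z • g z)

/-- interior gradient estimate -/
def GRAD : Prop := ∀ (n : Type) [Fintype n] [DecidableEq n] (r' r c C M : ℝ), 0 < r' → r' < r →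
  0 < c → ∃ K : ℝ, ∀ h : ℂ → Mx n,
  (∀ z ∈ ball (0 : ℂ) r, MetAt h z ∧ Btw c C (h z) ∧ ‖cv h z‖ ≤ M) →
  ∀ z ∈ ball (0 : ℂ) r', ∀ w ∈ ball (0 : ℂ) r',
    ‖cn h z‖ ≤ K ∧ ‖cn h z - cn h w‖ ≤ K * √‖z - w‖

/-- regularity: a `C¹` weak solution of `cv h = Γ (z, h)` is smooth -/
def REG : Prop := ∀ (n : Type) [Fintype n] [DecidableEq n] (U : Set ℂ) (h : ℂ → Mx n)
  (Γ : ℂ × Mx n → Mx n), IsOpen U → ContDiffOn ℝ 1 h U → (∀ z ∈ U, (h z).PosDef) →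
  (∀ z ∈ U, ContDiffAt ℝ ∞ Γ (z, h z)) → Wk U (cn h) (fun z => -Γ (z, h z)) →
    ContDiffOn ℝ ∞ h U ∧ ∀ z ∈ U, cv h z = Γ (z, h z)

/-! ### pointwise identities and maximum principles (28) -/

/-- maximum principles -/
def MAXP : Prop :=
  (∀ (u : ℂ → ℝ) (z : ℂ), ContDiffAt ℝ 2 u z → IsLocalMax u z → lp u z ≤ 0) ∧
  (∀ (u : ℂ → ℝ) (c : ℂ) (r M B : ℝ), 0 ≤ M → ContinuousOn u (closedBall c r) →
    (∀ z ∈ ball c r, ContDiffAt ℝ 2 u z ∧ -M ≤ lp u z) → (∀ z ∈ sphere c r, u z ≤ B) →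
    ∀ z ∈ closedBall c r, u z ≤ B + M * r ^ 2) ∧
  ∀ (u : ℂ → ℝ) (c : ℂ) (r : ℝ), (∀ z ∈ ball c r, ContDiffAt ℝ 2 u z ∧ 0 ≤ lp u z ∧ u z ≤ u c) →
    ∀ z ∈ ball c r, u z = u c

/-- change of the frame and of the coordinate; the determinant -/
def CHG : Prop := ∀ (n : Type) [Fintype n] [DecidableEq n] (h a : ℂ → Mx n) (P : ℂ → Mx n)
  (φ : ℂ → ℂ) (z : ℂ), AnalyticAt ℂ φ z → MetAt h (φ z) → AnalyticAt ℂ P z → (P z).det ≠ 0 →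
    MetAt (fun x => (P x)ᴴ * h (φ x) * P x) z ∧
    cv (fun x => (P x)ᴴ * h (φ x) * P x) z =
      ((‖deriv φ z‖ ^ 2 : ℝ) : ℂ) • ((P z)⁻¹ * cv h (φ z) * P z) ∧
    (∀ (a' : ℂ → Mx n) (c : ℂ), ‖c‖ = ‖deriv φ z‖ → a' z = c • ((P z)⁻¹ * a (φ z) * P z) →
      hk (fun x => (P x)ᴴ * h (φ x) * P x) a' z =
        ((‖deriv φ z‖ ^ 2 : ℝ) : ℂ) • ((P z)⁻¹ * hk h a (φ z) * P z)) ∧
    ad (h (φ z)) (h (φ z)) (hk h a (φ z)) = hk h a (φ z) ∧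
    lp (fun x => Real.log (h x).det.re) (φ z) = -(trace (cv h (φ z))).re

/-- the basic identity for holomorphic maps of Higgs bundles, and its logarithmic form -/
def HOMK : Prop := ∀ (m n : Type) [Fintype m] [DecidableEq m] [Fintype n] [DecidableEq n]
  (k a : ℂ → Mx m) (h b : ℂ → Mx n) (g : ℂ → Matrix n m ℂ) (z : ℂ), MetAt k z → MetAt h z →
  AnalyticAt ℂ g z → g z * a z = b z * g z →
    ContDiffAt ℝ 2 (fun x => nq (k x) (h x) (g x)) z ∧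
    lp (fun x => nq (k x) (h x) (g x)) z =
      nq (k z) (h z) (dz g z + cn h z * g z - g z * cn k z) +
      nq (k z) (h z) (ad (h z) (h z) (b z) * g z - g z * ad (k z) (k z) (a z)) +
      (trace (ad (k z) (h z) (g z) * g z * hk k a z)).re -
      (trace (g z * ad (k z) (h z) (g z) * hk h b z)).re ∧
    (g z ≠ 0 → nq (k z) (h z) (ad (h z) (h z) (b z) * g z - g z * ad (k z) (k z) (a z)) +
      (trace (ad (k z) (h z) (g z) * g z * hk k a z)).re -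
      (trace (g z * ad (k z) (h z) (g z) * hk h b z)).re ≤
      nq (k z) (h z) (g z) * lp (fun x => Real.log (nq (k x) (h x) (g x))) z)

/-- curvature decreases in invariant subbundles -/
def SFF : Prop := ∀ (m n : Type) [Fintype m] [DecidableEq m] [Fintype n] [DecidableEq n]
  (h b : ℂ → Mx n) (t : ℂ → Matrix n m ℂ) (c : Mx m) (z : ℂ), MetAt h z → AnalyticAt ℂ t z →
  Function.Injective (t z).mulVec → b z * t z = t z * c →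
    MetAt (fun x => (t x)ᴴ * h x * t x) z ∧
    (trace (cv (fun x => (t x)ᴴ * h x * t x) z)).re ≤ (trace (pr (h z) (t z) * hk h b z)).re

/-- an almost normal matrix is bounded by its characteristic polynomial -/
def ALG : Prop := ∀ (n : Type) [Fintype n] [DecidableEq n] (C : ℝ), ∃ R : ℝ, ∀ h a : Mx n,
  h.PosDef → (∀ i, ‖a.charpoly.coeff i‖ ≤ C) → nq h h (br h a) ≤ C * nq h h a → nq h h a ≤ R

/-- the norm `nq` against the matrix norm; traces against `nq` -/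
def NRM : Prop := ∀ (m n : Type) [Fintype m] [DecidableEq m] [Fintype n] [DecidableEq n],
  (∀ c C : ℝ, 0 < c → ∃ K : ℝ, 0 < K ∧ ∀ (k : Mx m) (h : Mx n) (g : Matrix n m ℂ), Btw c C k →
    Btw c C h → ‖g‖ ^ 2 ≤ K * nq k h g ∧ nq k h g ≤ K * ‖g‖ ^ 2) ∧
  ∀ (k : Mx m) (h : Mx n) (g : Matrix n m ℂ) (X : Mx m) (Y : Mx n) (M : ℝ), k.PosDef → h.PosDef →
    0 ≤ M → 0 ≤ nq k h g ∧ (nq k h g = 0 → g = 0) ∧
    (nq k k X ≤ M ^ 2 → |(trace (ad k h g * g * X)).re| ≤ M * nq k h g) ∧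
    (nq h h Y ≤ M ^ 2 → |(trace (g * ad k h g * Y)).re| ≤ M * nq k h g)

/-! ### frames (85, 23, 14) -/

/-- Wiener-Masani frames -/
def WMF : Prop := ∀ (n : Type) [Fintype n] [DecidableEq n] (r M : ℝ), 0 < r → ∃ c C : ℝ, 0 < c ∧
  ∀ h : ℂ → Mx n, (∀ z ∈ closedBall (0 : ℂ) r, MetAt h z ∧ nq (h z) (h z) (cv h z) ≤ M ^ 2) →
  ∃ Φ : ℂ → Mx n, AnalyticOnNhd ℂ Φ (ball 0 r) ∧
    ∀ z ∈ ball (0 : ℂ) r, (Φ z).det ≠ 0 ∧ Btw c C ((Φ z)ᴴ * h z * Φ z)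

/-- Cartan's lemma: a holomorphic cocycle is trivial over a smaller disc -/
def TRIV : Prop := ∀ (n J : Type) [Fintype n] [DecidableEq n] (V : J → Set ℂ)
  (g : J → J → ℂ → Mx n) (r' r : ℝ), r' < r → (∀ i, IsOpen (V i)) →
  (∀ z ∈ ball (0 : ℂ) r, ∃ i, z ∈ V i) →
  (∀ i j, ∀ z ∈ V i ∩ V j, AnalyticAt ℂ (g i j) z ∧ (g i j z).det ≠ 0) →
  (∀ i j l, ∀ z ∈ V i ∩ V j ∩ V l, g i j z * g j l z = g i l z) →
  ∃ s : J → ℂ → Mx n, (∀ i, ∀ z ∈ V i ∩ ball 0 r', AnalyticAt ℂ (s i) z ∧ (s i z).det ≠ 0) ∧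
    ∀ i j, ∀ z ∈ V i ∩ V j ∩ ball 0 r', s i z = g i j z * s j z

/-- holomorphic frames of `db + α`: existence, and continuous dependence on `α` -/
def INT : Prop := ∀ (n : Type) [Fintype n] [DecidableEq n] (r' r : ℝ) (α : ℂ → Mx n), r' < r →
  ContDiffOn ℝ ∞ α (ball 0 r) →
  ∃ F : ℂ → Mx n, ContDiffOn ℝ ∞ F (ball 0 r') ∧
    (∀ z ∈ ball (0 : ℂ) r', (F z).det ≠ 0 ∧ db F z + α z * F z = 0) ∧
    ∀ ε : ℝ, 0 < ε → ∃ δ : ℝ, 0 < δ ∧ ∀ β : ℂ → Mx n, ContDiffOn ℝ ∞ β (ball 0 r) →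
      (∀ z ∈ ball (0 : ℂ) r, ‖β z - α z‖ ≤ δ) →
      ∃ G : ℂ → Mx n, ContDiffOn ℝ ∞ G (ball 0 r') ∧ ∀ z ∈ ball (0 : ℂ) r',
        (G z).det ≠ 0 ∧ db G z + β z * G z = 0 ∧ ‖G z - F z‖ ≤ ε

/-- parallel frames of a holomorphic connection on a disc, continuous in the connection -/
def ODE : Prop := ∀ (n : Type) [Fintype n] [DecidableEq n] (r : ℝ) (A : ℂ → Mx n),
  AnalyticOnNhd ℂ A (ball 0 r) →
  ∃ Y : ℂ → Mx n, AnalyticOnNhd ℂ Y (ball 0 r) ∧ Y 0 = 1 ∧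
    (∀ z ∈ ball (0 : ℂ) r, (Y z).det ≠ 0 ∧ deriv Y z + A z * Y z = 0) ∧
    ∀ r' ε : ℝ, r' < r → 0 < ε → ∃ δ : ℝ, 0 < δ ∧ ∀ B Z : ℂ → Mx n,
      AnalyticOnNhd ℂ Z (ball 0 r') → Z 0 = 1 →
      (∀ z ∈ ball (0 : ℂ) r', ‖B z - A z‖ ≤ δ ∧ deriv Z z + B z * Z z = 0) →
      ∀ z ∈ ball (0 : ℂ) r', ‖Z z - Y z‖ ≤ ε

/-- local Smith form: `g = Q D P` with `D` diagonal of rank `r` off the centre -/
def KER : Prop := ∀ (m n : ℕ) (g : ℂ → Matrix (Fin n) (Fin m) ℂ) (z : ℂ), AnalyticAt ℂ g z →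
  ∃ (r : ℕ) (e : Fin m → ℕ) (P : ℂ → Mx (Fin m)) (Q : ℂ → Mx (Fin n)), r ≤ m ∧ r ≤ n ∧
    AnalyticAt ℂ P z ∧ AnalyticAt ℂ Q z ∧ (P z).det ≠ 0 ∧ (Q z).det ≠ 0 ∧
    ∀ᶠ x in 𝓝 z, g x * P x = Q x * Matrix.of fun (i : Fin n) (j : Fin m) =>
      if (i : ℕ) = j ∧ (j : ℕ) < r then (x - z) ^ e j else 0

/-- Montel and Hurwitz -/
def MON : Prop :=
  (∀ (F : Type) [NormedAddCommGroup F] [NormedSpace ℂ F] [FiniteDimensional ℂ F] (U : Set ℂ)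
    (f : ℕ → ℂ → F) (M : ℝ), IsOpen U → (∀ j, AnalyticOnNhd ℂ (f j) U) →
    (∀ j, ∀ z ∈ U, ‖f j z‖ ≤ M) → ∃ (σ : ℕ → ℕ) (g : ℂ → F), StrictMono σ ∧
      AnalyticOnNhd ℂ g U ∧ TendstoLocallyUniformlyOn (fun j => f (σ j)) g atTop U) ∧
  (∀ (F : Type) [NormedAddCommGroup F] [NormedSpace ℝ F] [FiniteDimensional ℝ F] (U : Set ℂ)
    (f : ℕ → ℂ → F) (M : ℝ), (∀ j, ∀ z ∈ U, ∀ w ∈ U,
      ‖f j z‖ ≤ M ∧ ‖f j z - f j w‖ ≤ M * √‖z - w‖) → Bornology.IsBounded U →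
    ∃ (σ : ℕ → ℕ) (g : ℂ → F), StrictMono σ ∧ TendstoUniformlyOn (fun j => f (σ j)) g atTop U) ∧
  ∀ (U : Set ℂ) (f : ℕ → ℂ → ℂ) (g : ℂ → ℂ) (z : ℂ), IsOpen U → z ∈ U →
    (∀ j, AnalyticOnNhd ℂ (f j) U ∧ ∀ x ∈ U, f j x ≠ 0) →
    TendstoLocallyUniformlyOn f g atTop U → g z = 0 → ∀ᶠ x in 𝓝 z, g x = 0

/-! ### functional analysis (73) -/

/-- Fredholm alternative and implicit functions -/
def FRED : Prop := ∀ (E : Type) [NormedAddCommGroup E] [NormedSpace ℝ E] [CompleteSpace E]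
  (Φ : E × ℝ → E) (u : E) (t : ℝ), ContDiffAt ℝ 1 Φ (u, t) → Φ (u, t) = u →
  IsCompactOperator ((fderiv ℝ Φ (u, t)).comp (ContinuousLinearMap.inl ℝ E ℝ)) →
  (∀ y, fderiv ℝ Φ (u, t) (y, 0) = y → y = 0) →
  ∀ V ∈ 𝓝 u, ∀ᶠ s in 𝓝 t, ∃ v ∈ V, Φ (v, s) = v

end Vale.Agent.P275NA
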