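import Vale.Agent.P275NA.Glob
import Vale.Agent.P275GC.Int
import Vale.Agent.P275HK.Cal

/-!
P275 (helper18): transformation rules, restriction and extension, continuous convergence.
-/

set_option linter.all false

open scoped Matrix.Norms.Operator Topology ComplexOrder ContDiff ComplexConjugate
open Filter Set Matrix Complex Metric MeasureTheory
open Vale.Agent.P281Z.Hm
open Vale.Agent.P275GC Vale.Agent.P275GC.At Vale.Agent.P275HK

noncomputable section

namespace Vale.Agent.P275NA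

section alg
variable {m n : Type} [Fintype m] [DecidableEq m] [Fintype n] [DecidableEq n]

theorem ct_unit {P : Mx n} (hP : IsUnit P.det) : IsUnit (Pᴴ).det := by
  rw [det_conjTranspose]; exact hP.star

theorem ad_chg {P : Mx m} {Q : Mx n} (hP : IsUnit P.det) (hQ : IsUnit Q.det) (k : Mx m) (h : Mx n)
    (g : Matrix n m ℂ) : ad (Pᴴ * k * P) (Qᴴ * h * Q) (Q⁻¹ * g * P) = P⁻¹ * ad k h g * Q := by
  simp only [ad, Matrix.mul_inv_rev, conjTranspose_mul, conjTranspose_nonsing_inv, Matrix.mul_assoc,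
    nonsing_inv_mul_cancel_left _ _ (ct_unit hP), nonsing_inv_mul_cancel_left _ _ (ct_unit hQ)]

theorem nq_chg {P : Mx m} {Q : Mx n} (hP : IsUnit P.det) (hQ : IsUnit Q.det) (k : Mx m) (h : Mx n)
    (g : Matrix n m ℂ) : nq (Pᴴ * k * P) (Qᴴ * h * Q) (Q⁻¹ * g * P) = nq k h g := by
  rw [nq, ad_chg hP hQ, nq, trace_mul_comm, trace_mul_comm (ad k h g)]
  simp only [Matrix.mul_assoc, mul_nonsing_inv_cancel_left _ _ hP]
  rw [trace_mul_comm]
  simp only [Matrix.mul_assoc, mul_nonsing_inv _ hQ, Matrix.mul_one]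

theorem nq_one {h : Mx n} (hh : h.PosDef) : nq h h 1 = Fintype.card n := by
  rw [nq, ad_one (pd_det hh), Matrix.mul_one, trace_one, natCast_re]

theorem ad_id (k h : Mx n) : ad k h 1 = k⁻¹ * h := by rw [ad, conjTranspose_one, Matrix.mul_one]

theorem nq_id (k h : Mx n) : nq k h 1 = (trace (k⁻¹ * h)).re := by rw [nq, ad_id, Matrix.mul_one]

theorem nq_eq (k : Mx m) (h : Mx n) (u : Matrix n m ℂ) : nq k h u = (trace (k⁻¹ * (uᴴ * h * u))).re := by
  simp only [nq, ad, Matrix.mul_assoc]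

theorem nq_sub_le {k : Mx m} {h : Mx n} (hk : k.PosDef) (hh : h.PosDef) (x y : Matrix n m ℂ) :
    nq k h (x - y) ≤ 2 * nq k h x + 2 * nq k h y := by
  have := nq_nonneg hk hh (x + y)
  simp only [nq, ad_add, ad_sub, Matrix.add_mul, Matrix.mul_add, Matrix.sub_mul, Matrix.mul_sub,
    trace_add, trace_sub, add_re, sub_re] at this ⊢
  linarith

/-- `tr f² ≤ (tr f)²` -/
theorem nq_rel {k h : Mx n} (hk : k.PosDef) (hh : h.PosDef) :
    nq h h (k⁻¹ * h) ≤ nq k h 1 ^ 2 := by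
  have := nq_mul hh hk hh 1 (ad k h 1)
  rwa [nq_ad hk hh, Matrix.one_mul, ad_id, ← sq] at this

theorem ad_rel {k h : Mx n} (hk : k.PosDef) (hh : h.PosDef) : ad h h (k⁻¹ * h) = k⁻¹ * h := by
  simp only [ad, conjTranspose_mul, conjTranspose_nonsing_inv, hk.isHermitian.eq, hh.isHermitian.eq,
    Matrix.mul_assoc, nonsing_inv_mul_cancel_left _ _ (pd_det hh)]

/-- `(tr f)² ≤ n tr f²` -/
theorem sq_le_nq {k h : Mx n} (hk : k.PosDef) (hh : h.PosDef) :
    nq k h 1 ^ 2 ≤ Fintype.card n * (trace (k⁻¹ * h * (k⁻¹ * h))).re := by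
  have := cs_nq hh hh 1 (k⁻¹ * h)
  rw [nq_one hh, ad_one (pd_det hh), Matrix.one_mul, nq, ad_rel hk hh] at this
  refine le_trans ?_ this
  rw [nq_id, ← sq_abs]
  exact pow_le_pow_left₀ (abs_nonneg _) (abs_re_le_norm _) 2

theorem tr_norm (k : Mx n) : ‖trace k‖ ≤ Fintype.card n * ‖k‖ := by
  refine (norm_sum_le_of_le _ fun i _ => ent_le k i i).trans ?_
  rw [Finset.sum_const, nsmul_eq_mul, Finset.card_univ]

theorem nq_std (u : Matrix n m ℂ) : nq 1 1 u = fs u := by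
  rw [nq, ad, inv_one, Matrix.one_mul, Matrix.mul_one, tr_fs, ofReal_re]

/-- the matrix norm against `nq`, one sided -/
theorem norm_le_nq (c M : ℝ) (hc : 0 < c) : ∃ K : ℝ, 0 ≤ K ∧ ∀ (C : ℝ) (k : Mx m) (h : Mx n)
    (u : Matrix n m ℂ), k.PosDef → ‖k‖ ≤ M → Btw c C h → ‖u‖ ^ 2 ≤ K * nq k h u := by
  obtain ⟨K, hK, H⟩ := fs_norm (n := n) (m := m)
  refine ⟨K * (c⁻¹ * Fintype.card n) * (Fintype.card m * |M|), by positivity,
    fun C k h u hk hM hb => (H u).1.trans ?_⟩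
  have hh := Btw.pd hc hb
  have a1 := nq_mul PosDef.one hh PosDef.one (1 : Mx n) u
  have a2 := nq_mul PosDef.one hk hh u (1 : Mx m)
  have a3 : nq h (1 : Mx n) 1 ≤ c⁻¹ * Fintype.card n := by
    obtain ⟨Q, hQ, rfl⟩ := ex_sq hh
    have := nq_sq hQ (1 : Mx n) 1
    rw [conjTranspose_one, Matrix.mul_one, Matrix.one_mul] at this
    rw [this]
    exact (btw_fs hc hQ hb).2
  have a4 : nq (1 : Mx m) k 1 ≤ Fintype.card m * |M| := by
    rw [nq_id, inv_one, Matrix.one_mul]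
    exact ((re_le_norm _).trans (tr_norm k)).trans
      (mul_le_mul_of_nonneg_left (hM.trans (le_abs_self M)) (by positivity))
  rw [Matrix.one_mul, nq_std] at a1
  rw [Matrix.mul_one] at a2
  have b0 := nq_nonneg hk hh u
  have b1 := a2.trans (mul_le_mul_of_nonneg_left a4 b0)
  have b2 := a1.trans (mul_le_mul a3 b1 (nq_nonneg PosDef.one hh u) (by positivity))
  calc K * fs u ≤ K * (c⁻¹ * Fintype.card n * (nq k h u * (Fintype.card m * |M|))) :=
        mul_le_mul_of_nonneg_left b2 hK.le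
    _ = _ := by ring

theorem gram_pd {h : Mx n} (hh : h.PosDef) {t : Matrix n m ℂ} (ht : Function.Injective t.mulVec) :
    (tᴴ * h * t).PosDef := hh.conjTranspose_mul_mul_same ht

theorem unit_inj {P : Mx n} (hP : P.det ≠ 0) : Function.Injective P.mulVec :=
  mulVec_injective_iff_isUnit.2 ((isUnit_iff_isUnit_det _).2 hP.isUnit)

theorem tr_pr {h : Mx n} (hh : h.PosDef) {t : Matrix n m ℂ} (ht : Function.Injective t.mulVec) :
    trace (pr h t) = Fintype.card m := by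
  rw [pr, Matrix.mul_assoc, Matrix.mul_assoc, trace_mul_comm, Matrix.mul_assoc,
    nonsing_inv_mul _ (pd_det (gram_pd hh ht)), trace_one]

theorem pr_mul {l : Type} [Fintype l] [DecidableEq l] {h : Mx n} (hh : h.PosDef) {t : Matrix n m ℂ}
    (ht : Function.Injective t.mulVec) {u : Matrix n l ℂ}
    (e : LinearMap.range u.mulVecLin ≤ LinearMap.range t.mulVecLin) : pr h t * u = u := by
  refine Matrix.ext_of_mulVec_single fun i => ?_
  obtain ⟨v, hv⟩ := e ⟨Pi.single i 1, rfl⟩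
  rw [mulVecLin_apply, mulVecLin_apply] at hv
  rw [← mulVec_mulVec, ← hv, mulVec_mulVec, pr]
  have := nonsing_inv_mul _ (pd_det (gram_pd hh ht))
  simp only [Matrix.mul_assoc] at this ⊢
  rw [this, Matrix.mul_one]

variable {z : ℂ}

theorem hk_congr {h h' a a' : ℂ → Mx n} (e : h =ᶠ[𝓝 z] h') (e' : a z = a' z) :
    hk h a z = hk h' a' z := by rw [hk, hk, cv_congr e, e.self_of_nhds, e']

theorem tr_hk (h a : ℂ → Mx n) : trace (hk h a z) = trace (cv h z) := by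
  rw [hk, trace_add, tr_br, add_zero]

/-- the connection in a new frame -/
theorem cn_chg {h P : ℂ → Mx n} (hh : DifferentiableAt ℝ h z) (h0 : (h z).det ≠ 0)
    (hP : AnalyticAt ℂ P z) (h1 : (P z).det ≠ 0) :
    cn (fun x => (P x)ᴴ * h x * P x) z = (P z)⁻¹ * cn h z * P z + (P z)⁻¹ * deriv P z := by
  have d := hol_df hP
  rw [cn, dz, wd_mul (df_mul (df_ct d) hh) d, wd_mul (df_ct d) hh, wd_ct d,
    wb_hol hP.differentiableAt, show wd 1 P z = deriv P z from dz_hol hP.differentiableAt, cn]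
  simp only [conjTranspose_zero, Matrix.zero_mul, zero_add, Matrix.mul_inv_rev, Matrix.mul_add,
    Matrix.mul_assoc, nonsing_inv_mul_cancel_left _ _ (ct_unit h1.isUnit),
    nonsing_inv_mul_cancel_left _ _ h0.isUnit]

theorem hk_frame (chg : CHG) {h a a' P : ℂ → Mx n} (hh : MetAt h z) (hP : AnalyticAt ℂ P z)
    (h1 : (P z).det ≠ 0) (e : P z * a' z = a z * P z) :
    hk (fun x => (P x)ᴴ * h x * P x) a' z = (P z)⁻¹ * hk h a z * P z := by
  have := (chg n h a P (fun x => x) z analyticAt_id hh hP h1).2.2.1 a' 1 (by simp) (by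
    rw [one_smul, Matrix.mul_assoc, ← e, nonsing_inv_mul_cancel_left _ _ h1.isUnit])
  simpa using this

theorem cd_cn {N : WithTop ℕ∞} {h : ℂ → Mx n} (hh : ContDiffAt ℝ (N + 1) h z) (h0 : (h z).det ≠ 0) :
    ContDiffAt ℝ N (cn h) z := cd_mul (cd_inv (hh.of_le le_self_add) h0) (cd_dz hh)

theorem cd_hk {h a : ℂ → Mx n} (hh : ContDiffAt ℝ ∞ h z) (h0 : (h z).det ≠ 0)
    (ha : ContDiffAt ℝ ∞ a z) : ContDiffAt ℝ ∞ (hk h a) z :=
  (cd_db (N := ∞) (cd_cn (N := ∞) hh h0)).neg.add ((cd_mul ha (cd_ad hh h0 hh ha)).sub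
    (cd_mul (cd_ad hh h0 hh ha) ha))

theorem cd_nq {N : WithTop ℕ∞} {k : ℂ → Mx m} {h : ℂ → Mx n} {g : ℂ → Matrix n m ℂ}
    (hk : ContDiffAt ℝ N k z) (h0 : (k z).det ≠ 0) (hh : ContDiffAt ℝ N h z)
    (hg : ContDiffAt ℝ N g z) : ContDiffAt ℝ N (fun x => nq (k x) (h x) (g x)) z :=
  cd_re (cd_trace (cd_mul (cd_ad hk h0 hh hg) hg))

end alg

section cq
variable {E F G : Type} {U : Set ℂ} {x : ℂ}

/-- continuous convergence at a point -/
def Cq [TopologicalSpace F] (u : ℕ → ℂ → F) (x : ℂ) (y : F) : Prop :=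
  Tendsto (fun p : ℕ × ℂ => u p.1 p.2) (atTop ×ˢ 𝓝 x) (𝓝 y)

theorem cq_of [UniformSpace F] {u : ℕ → ℂ → F} {f : ℂ → F} (hU : IsOpen U)
    (h : TendstoLocallyUniformlyOn u f atTop U) (hx : x ∈ U) (hf : ContinuousAt f x) :
    Cq u x (f x) := by
  have a := tendstoLocallyUniformlyOn_iff_forall_tendsto.1 h x hx
  rw [hU.nhdsWithin_eq hx] at a
  exact (hf.tendsto.comp tendsto_snd).congr_uniformity a

theorem of_cq [UniformSpace F] {u : ℕ → ℂ → F} {f : ℂ → F} (hf : ContinuousOn f U)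
    (h : ∀ x ∈ U, Cq u x (f x)) : TendstoLocallyUniformlyOn u f atTop U :=
  tendstoLocallyUniformlyOn_iff_forall_tendsto.2 fun x hx =>
    (((hf x hx).tendsto.comp tendsto_snd).prodMk_nhds ((h x hx).mono_left
      (prod_mono_right _ nhdsWithin_le_nhds))).mono_right (nhds_le_uniformity _)

variable [TopologicalSpace E] [TopologicalSpace F] [TopologicalSpace G]

theorem Cq.pt {u : ℕ → ℂ → F} {y : F} (h : Cq u x y) : Tendsto (fun j => u j x) atTop (𝓝 y) :=
  h.comp (tendsto_id.prodMk (tendsto_const_nhds (x := x)))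

theorem Cq.sub' {u : ℕ → ℂ → F} {y : F} (h : Cq u x y) {σ : ℕ → ℕ} (hσ : StrictMono σ) :
    Cq (fun j => u (σ j)) x y := h.comp (hσ.tendsto_atTop.prodMap tendsto_id)

theorem cq_const {f : ℂ → F} (hf : ContinuousAt f x) : Cq (fun _ => f) x (f x) :=
  hf.tendsto.comp tendsto_snd

theorem cq_seq {s : ℕ → F} {y : F} (h : Tendsto s atTop (𝓝 y)) : Cq (fun j _ => s j) x y :=
  h.comp tendsto_fst

theorem Cq.app {u : ℕ → ℂ → F} {y : F} (h : Cq u x y) {T : F → G} (hT : ContinuousAt T y) :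
    Cq (fun j z => T (u j z)) x (T y) := hT.tendsto.comp h

theorem Cq.congr' {u v : ℕ → ℂ → F} {y : F} (h : Cq u x y) (hU : IsOpen U) (hx : x ∈ U)
    (e : ∀ j, ∀ z ∈ U, u j z = v j z) : Cq v x y :=
  Tendsto.congr' ((tendsto_snd.eventually (hU.mem_nhds hx)).mono fun p hp => e _ _ hp) h

variable {l m n : Type} [Fintype l] [Fintype m] [Fintype n]

theorem Cq.mmul {u : ℕ → ℂ → Matrix l m ℂ} {v : ℕ → ℂ → Matrix m n ℂ} {a : Matrix l m ℂ}
    {b : Matrix m n ℂ} (hu : Cq u x a) (hv : Cq v x b) : Cq (fun j z => u j z * v j z) x (a * b) :=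
  Cq.app (u := fun j z => (u j z, v j z)) (hu.prodMk_nhds hv)
    (T := fun p : Matrix l m ℂ × Matrix m n ℂ => p.1 * p.2)
    (an_mul (𝕜 := ℝ) analyticAt_fst analyticAt_snd).continuousAt

theorem Cq.ct {u : ℕ → ℂ → Matrix l m ℂ} {a : Matrix l m ℂ} (hu : Cq u x a) :
    Cq (fun j z => (u j z)ᴴ) x aᴴ := hu.app continuous_id.matrix_conjTranspose.continuousAt

theorem Cq.minv [DecidableEq n] {u : ℕ → ℂ → Mx n} {a : Mx n} (hu : Cq u x a) (h0 : a.det ≠ 0) :
    Cq (fun j z => (u j z)⁻¹) x a⁻¹ := hu.app (an_inv (𝕜 := ℂ) (f := id) analyticAt_id h0).continuousAt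

theorem Cq.nq [DecidableEq n] [DecidableEq m] {k : ℕ → ℂ → Mx m} {h : ℕ → ℂ → Mx n}
    {u : ℕ → ℂ → Matrix n m ℂ} {a : Mx m} {b : Mx n} {c : Matrix n m ℂ} (hk : Cq k x a)
    (h0 : a.det ≠ 0) (hh : Cq h x b) (hu : Cq u x c) :
    Cq (fun j z => nq (k j z) (h j z) (u j z)) x (nq a b c) :=
  ((((hk.minv h0).mmul hu.ct).mmul hh).mmul hu).app (T := fun y => (trace y).re)
    (continuous_re.comp continuous_id.matrix_trace).continuousAt

end cq

variable {C : Type} [TopologicalSpace C] {A : At C} {m n : ℕ} {i j : Fin A.N} {z : ℂ}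
  {l : Cy A ℂ} {w : Fm A ℝ} {g : Cy A (Mn n)} {a h k : Fm A (Mn n)}

theorem two_le : (2 : WithTop ℕ∞) ≤ ∞ := ENat.LEInfty.out

theorem dne (hg : A.Cc g) (hz : z ∈ A.O i j) : (g i j z).det ≠ 0 := hg.det.ne hz

theorem met (H : A.MtM ∞ g h) (hz : z ∈ ball (0 : ℂ) A.R) (i : Fin A.N) : MetAt (h i) z :=
  ⟨(H.sm.at hz i).of_le two_le, eventually_of_mem (isOpen_ball.mem_nhds hz) (H.pos i)⟩

theorem inv_cc (hg : A.Cc g) (hz : z ∈ A.O i j) : (g i j z)⁻¹ = g j i (A.tr i j z) :=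
  inv_eq_right_inv (hg.inv hz)

theorem mtm_inv {N : WithTop ℕ∞} (hg : A.Cc g) (H : A.MtM N g h) (hz : z ∈ A.O i j) :
    h i z = ((g i j z)⁻¹)ᴴ * h j (A.tr i j z) * (g i j z)⁻¹ := by
  have u := (dne hg hz).isUnit
  rw [H.tr i j z hz, conjTranspose_nonsing_inv]
  simp only [Matrix.mul_assoc, mul_nonsing_inv _ u, Matrix.mul_one,
    nonsing_inv_mul_cancel_left _ _ (ct_unit u)]

theorem cd_sa (hw : Tw A l w) (ha : A.Hl a) : A.Sm ∞ (sa A w a) := fun i z hz =>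
  ((P275HK.cd_ofReal ((hw.sm.at hz i).sqrt (hw.pos i z hz).ne')).smul
    (hol_cd (ha.an hz i))).contDiffWithinAt

theorem sm_HK (hw : Tw A l w) (ha : A.Hl a) (H : A.MtM ∞ g h) : A.Sm ∞ (HK A w a h) := fun i z hz =>
  (cd_hk (H.sm.at hz i) (pd_ne (H.pos i z hz)) ((cd_sa hw ha).at hz i)).contDiffWithinAt

/-- `HK` is an endomorphism valued density -/
theorem HK_tr (chg : CHG) (hw : Tw A l w) (ha : Hig A l g a) (H : A.MtM ∞ g h) (hz : z ∈ A.O i j) :
    HK A w a h i z =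
      (normSq (A.d i j z) : ℂ) • (g i j z * HK A w a h j (A.tr i j z) * (g i j z)⁻¹) := by
  have u := dne ha.cc hz
  have p := hw.pos j _ (tr_ball hz)
  have q : ((√(w j (A.tr i j z)) : ℝ) : ℂ) ≠ 0 := ofReal_ne_zero.2 (Real.sqrt_pos.2 p).ne'
  have := (chg (Fin n) (h j) (sa A w a j) (fun x => (g i j x)⁻¹) (A.tr i j) z (an_tr hz)
    (met H (tr_ball hz) j) (an_inv (ha.cc.an hz) u) (isUnit_nonsing_inv_det _ u.isUnit).ne_zero).2.2.1
    (sa A w a i) (√(w i z) * l i j z / √(w j (A.tr i j z))) (by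
      refine (sq_eq_sq₀ (norm_nonneg _) (norm_nonneg _)).1 ?_
      rw [norm_div, norm_mul, div_pow, mul_pow, norm_real, norm_real, Real.norm_eq_abs,
        Real.norm_eq_abs, sq_abs, sq_abs, Real.sq_sqrt p.le, Real.sq_sqrt (hw.pos i z hz.1).le,
        ← normSq_eq_norm_sq, ← normSq_eq_norm_sq, hw.tr i j z hz, div_eq_iff p.ne']
      rfl) (by
      have e := congrArg (· * (g i j z)⁻¹) (ha.tr i j z hz)
      simp only [mul_nonsing_inv_cancel_right _ _ u.isUnit] at e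
      simp only [sa, nonsing_inv_nonsing_inv _ u.isUnit, e, Matrix.mul_smul, Matrix.smul_mul,
        smul_smul, div_mul_cancel₀ _ q])
  rw [nonsing_inv_nonsing_inv _ u.isUnit, ← normSq_eq_norm_sq] at this
  exact (hk_congr (eventually_of_mem (O_nhds hz) fun x hx => mtm_inv ha.cc H hx) rfl).trans this

theorem nq_tr {N : WithTop ℕ∞} (hg : A.Cc g) (K : A.MtM N g k) (H : A.MtM N g h) (hz : z ∈ A.O i j)
    (X : Mn n) : nq (k i z) (h i z) (g i j z * X * (g i j z)⁻¹) =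
      nq (k j (A.tr i j z)) (h j (A.tr i j z)) X := by
  have u := (dne hg hz).isUnit
  rw [K.tr i j z hz, H.tr i j z hz, ← nq_chg u u]
  simp only [Matrix.mul_assoc, nonsing_inv_mul _ u, Matrix.mul_one, nonsing_inv_mul_cancel_left _ _ u]

theorem rel_tr {N : WithTop ℕ∞} (hg : A.Cc g) (K : A.MtM N g k) (H : A.MtM N g h)
    (hz : z ∈ A.O i j) : (k i z)⁻¹ * h i z =
      g i j z * ((k j (A.tr i j z))⁻¹ * h j (A.tr i j z)) * (g i j z)⁻¹ := by
  have u := (dne hg hz).isUnit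
  rw [K.tr i j z hz, H.tr i j z hz]
  simp only [Matrix.mul_inv_rev, Matrix.mul_assoc, mul_nonsing_inv _ u, Matrix.mul_one,
    mul_nonsing_inv_cancel_left _ _ u, nonsing_inv_mul_cancel_left _ _ (ct_unit u)]

theorem fn_nq {N : WithTop ℕ∞} (hg : A.Cc g) (K : A.MtM N g k) (H : A.MtM N g h) :
    A.Fn fun i z => nq (k i z) (h i z) 1 := fun i j z hz => by
  have := nq_tr hg K H hz 1
  rwa [Matrix.mul_one, mul_nonsing_inv _ (dne hg hz).isUnit] at this

variable [T2Space C]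

/-- bounds for `HK` on the unit discs are enough -/
theorem HK_bd (chg : CHG) (hw : Tw A l w) (ha : Hig A l g a) (H : A.MtM ∞ g h) {M : ℝ}
    (b : ∀ i, ∀ z ∈ ball (0 : ℂ) 1, nq (h i z) (h i z) (HK A w a h i z) ≤ (M * A.ρ i z) ^ 2) (i)
    (hz : z ∈ ball (0 : ℂ) A.R) : nq (h i z) (h i z) (HK A w a h i z) ≤ (M * A.ρ i z) ^ 2 := by
  obtain ⟨j, p, q⟩ := ex_unit hz i
  rw [HK_tr chg hw ha H p, nq_smul, nq_tr ha.cc H H p, dn_ρ i j z p, norm_real,
    Real.norm_eq_abs, sq_abs, smul_eq_mul, mul_left_comm, mul_pow (normSq _)]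
  exact mul_le_mul_of_nonneg_left (b j _ (mem_ball_zero_iff.2 q)) (sq_nonneg _)

/-- the equation on the unit discs is enough -/
theorem eqn_unit (chg : CHG) (hw : Tw A l w) (ha : Hig A l g a) (K : A.MtM ∞ g k) (H : A.MtM ∞ g h)
    {c ε : ℝ} (b : ∀ i z, ‖z‖ < 1 → HK A w a h i z =
      (A.ρ i z : ℂ) • (((c + ε : ℝ) : ℂ) • 1 - (ε : ℂ) • ((k i z)⁻¹ * h i z))) :
    Eqn A w a k h c ε := fun i z hz => by
  obtain ⟨j, p, q⟩ := ex_unit hz i
  rw [HK_tr chg hw ha H p, b j _ q, rel_tr ha.cc K H p, dn_ρ i j z p, smul_eq_mul, ofReal_mul,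
    mul_smul]
  simp only [Matrix.mul_smul, Matrix.smul_mul, Matrix.mul_sub, Matrix.sub_mul, Matrix.mul_one,
    mul_nonsing_inv _ (dne ha.cc p).isUnit]

omit [T2Space C]

theorem he_iff {c : ℝ} : HE A w a h c ↔ Eqn A w a k h c 0 := by
  simp only [HE, Eqn, add_zero, ofReal_zero, zero_smul, sub_zero, smul_smul, ofReal_mul, mul_comm]

section res
variable {r : ℝ} {h1 : 1 < r} {h2 : r ≤ A.R}

theorem Tw.res (hw : Tw A l w) : Tw (A.res r h1 h2) l w :=
  ⟨hw.cc.res, hw.sm.res, fun i z hz => hw.pos i z (ball_subset_ball h2 hz),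
    fun i j z hz => hw.tr i j z (res_O.1 hz).1⟩

theorem Hig.res (ha : Hig A l g a) : Hig (A.res r h1 h2) l g a :=
  ⟨ha.cc.res, ha.hol.res, fun i j z hz => ha.tr i j z (res_O.1 hz).1⟩

theorem Hom.res {g' : Cy A (Mn m)} {a' : Fm A (Mn m)} {u : Fm A (Mr m n)}
    (hu : Hom A g a g' a' u) : Hom (A.res r h1 h2) g a g' a' u :=
  ⟨hu.hol.res, fun i j z hz => hu.tr i j z (res_O.1 hz).1,
    fun i z hz => hu.com i z (ball_subset_ball h2 hz)⟩

theorem res_ec (g : Cy A (Mn n)) : ec (A.res r h1 h2) g = ec A g := by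
  show Real.pi * (A.res r h1 h2).degM g / (n * (A.res r h1 h2).int (A.res r h1 h2).ρ) = _
  rw [res_degM, res_ρ, res_int (A := A) (h1 := h1) (h2 := h2) A.ρ, ec]

theorem Eqn.res {c ε : ℝ} (e : Eqn A w a k h c ε) : Eqn (A.res r h1 h2) w a k h c ε :=
  fun i z hz => by rw [res_ρ]; exact e i z (ball_subset_ball h2 hz)

theorem HE.res {c : ℝ} (e : HE A w a h c) : HE (A.res r h1 h2) w a h c :=
  fun i z hz => by rw [res_ρ]; exact e i z (ball_subset_ball h2 hz)

theorem CvF.res {F : Type} [UniformSpace F] {us : ℕ → Fm A F} {u : Fm A F} (e : CvF A us u) :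
    CvF (A.res r h1 h2) us u := fun i => (e i).mono (ball_subset_ball h2)

theorem CvC.res {F : Type} [UniformSpace F] {us : ℕ → Cy A F} {u : Cy A F} (e : CvC A us u) :
    CvC (A.res r h1 h2) us u := fun i j => (e i j).mono fun _ hz => (res_O.1 hz).1

/-- the transition rule of metrics -/
def mT (A : At C) (g : Cy A (Mn n)) (i j : Fin A.N) (z : ℂ) (y : Mn n) : Mn n :=
  ((g i j z)⁻¹)ᴴ * y * (g i j z)⁻¹

theorem mT_mul (hg : A.Cc g) : ∀ i j k, ∀ z ∈ A.O i j, z ∈ A.O i k → ∀ y,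
    mT A g i k z y = mT A g i j z (mT A g j k (A.tr i j z) y) := fun i j k z p q y => by
  simp only [mT, hg.mul i j k z p q, Matrix.mul_inv_rev, conjTranspose_mul, Matrix.mul_assoc]

/-- extension of metrics -/
theorem mtm_xt {N : WithTop ℕ∞} (hg : A.Cc g) (H : (A.res r h1 h2).MtM N g h) :
    A.MtM N g (A.xt (mT A g) h) ∧ ∀ i, ∀ z ∈ ball (0 : ℂ) r, A.xt (mT A g) h i z = h i z := by
  have hu : ∀ i j, ∀ z ∈ (A.res r h1 h2).O i j, h i z = mT A g i j z (h j (A.tr i j z)) :=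
    fun i j z hz => mtm_inv hg.res H hz
  refine ⟨⟨fun i z hz => ?_, fun i z hz => ?_, fun i j z hz => ?_⟩, fun i z hz => xt_self hu hz⟩
  · obtain ⟨j, p, q⟩ := ex_unit hz i
    have q' := mem_ball_zero_iff.2 (q.trans h1)
    have b : ContDiffAt ℝ N (fun x => (g i j x)⁻¹) z := hol_cd (an_inv (hg.an p) (dne hg p))
    exact ((cd_mul (cd_mul (cd_ct b) ((H.sm.at q' j).comp z (hol_cd (an_tr p)))) b).congr_of_eventuallyEq
      (xt_ev (mT_mul hg) hu p q')).contDiffWithinAt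
  · obtain ⟨j, p, q⟩ := ex_unit hz i
    have q' := mem_ball_zero_iff.2 (q.trans h1)
    rw [xt_eq (mT_mul hg) hu p q']
    exact gram_pd (H.pos j _ q') (unit_inj (isUnit_nonsing_inv_det _ (dne hg p).isUnit).ne_zero)
  · have u := (dne hg hz).isUnit
    rw [xt_tr (mT_mul hg) hu hz, mT, conjTranspose_nonsing_inv]
    simp only [Matrix.mul_assoc, nonsing_inv_mul _ u, Matrix.mul_one,
      mul_nonsing_inv_cancel_left _ _ (ct_unit u)]

end res

section cv
variable {F : Type} {us : ℕ → Fm A F} {u : Fm A F}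

theorem CvF.cq [UniformSpace F] (e : CvF A us u) (hu : A.Ct u) (hz : z ∈ ball (0 : ℂ) A.R) (i) :
    Cq (fun j => us j i) z (u i z) := cq_of isOpen_ball (e i) hz (hu.at hz i)

theorem cvF_of [UniformSpace F] (hu : A.Ct u)
    (e : ∀ i, ∀ z ∈ ball (0 : ℂ) A.R, Cq (fun j => us j i) z (u i z)) : CvF A us u :=
  fun i => of_cq (hu i) (e i)

theorem tlu_sub [UniformSpace F] {u : ℕ → ℂ → F} {f : ℂ → F} {U : Set ℂ}
    (e : TendstoLocallyUniformlyOn u f atTop U) {σ : ℕ → ℕ} (hσ : StrictMono σ) :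
    TendstoLocallyUniformlyOn (fun j => u (σ j)) f atTop U := fun V hV x hx =>
  (e V hV x hx).imp fun _ b => ⟨b.1, hσ.tendsto_atTop.eventually b.2⟩

theorem CvF.sub' [UniformSpace F] (e : CvF A us u) {σ : ℕ → ℕ} (hσ : StrictMono σ) :
    CvF A (fun j => us (σ j)) u := fun i => tlu_sub (e i) hσ

theorem CvC.sub' [UniformSpace F] {us : ℕ → Cy A F} {u : Cy A F} (e : CvC A us u) {σ : ℕ → ℕ}
    (hσ : StrictMono σ) : CvC A (fun j => us (σ j)) u :=
  fun i j => tlu_sub (e i j) hσ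

theorem CvF.ct [UniformSpace F] (e : CvF A us u) (hu : ∀ j, A.Ct (us j)) : A.Ct u :=
  fun i => (e i).continuousOn (Frequently.of_forall fun j => hu j i)

theorem CvF.near [PseudoMetricSpace F] (e : CvF A us u) {r ε : ℝ} (hr : r < A.R) (hε : 0 < ε) :
    ∀ᶠ j in atTop, ∀ i z, ‖z‖ ≤ r → dist (u i z) (us j i z) < ε :=
  eventually_all.2 fun i => (Metric.tendstoUniformlyOn_iff.1
    ((tendstoLocallyUniformlyOn_iff_tendstoUniformlyOn_of_compact (isCompact_closedBall 0 r)).1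
      ((e i).mono (closedBall_subset_ball hr))) ε hε).mono fun j hj z hz =>
        hj z (mem_closedBall_zero_iff.2 hz)

/-- convergent sequences are bounded on smaller discs -/
theorem CvF.bdd [SeminormedAddCommGroup F] (e : CvF A us u) (hu : ∀ j, A.Ct (us j)) {r : ℝ}
    (hr : r < A.R) : ∃ M, 0 ≤ M ∧ ∀ j i z, ‖z‖ ≤ r → ‖us j i z‖ ≤ M := by
  obtain ⟨M, h0, hM⟩ := (e.ct hu).bdd hr
  obtain ⟨N, hN⟩ := eventually_atTop.1 (e.near hr one_pos)
  choose B b0 hB using fun j => (hu j).bdd hr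
  have s0 : 0 ≤ ∑ j ∈ Finset.range N, B j := Finset.sum_nonneg fun j _ => b0 j
  refine ⟨M + 1 + ∑ j ∈ Finset.range N, B j, by positivity, fun j i z hz => ?_⟩
  rcases lt_or_ge j N with p | p
  · have := Finset.single_le_sum (f := B) (fun j _ => b0 j) (Finset.mem_range.2 p)
    linarith [hB j i z hz]
  · have := hN j p i z hz
    rw [dist_comm, dist_eq_norm] at this
    linarith [norm_sub_norm_le (us j i z) (u i z), hM i z hz]

theorem CvF.int [T2Space C] [NormedAddCommGroup F] [NormedSpace ℝ F] (e : CvF A us u)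
    (hu : ∀ j, A.Ct (us j)) : Tendsto (fun j => A.int (us j)) atTop (𝓝 (A.int u)) := by
  obtain ⟨M, -, hM⟩ := e.bdd hu A.hR
  exact tendsto_int (b := fun _ _ => M) (Eventually.of_forall fun j => (hu j).in)
    (Ct.in fun _ => continuousOn_const) (Eventually.of_forall fun j i => Eventually.of_forall
      fun z hz => hM j i z hz.le) fun i => Eventually.of_forall fun z hz =>
        (e i).tendsto_at (mem_of_le hz.le)

end cv

theorem Lim.sub' {gs : ℕ → Cy A (Mn n)} {as hs Φ : ℕ → Fm A (Mn n)} (L : Lim A gs as hs Φ g a h)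
    {σ : ℕ → ℕ} (hσ : StrictMono σ) : Lim A (fun j => gs (σ j)) (fun j => as (σ j))
      (fun j => hs (σ j)) (fun j => Φ (σ j)) g a h :=
  ⟨fun j => L.an _, fun j => L.ne _, L.bt.imp fun _ => Exists.imp fun _ b => ⟨b.1, fun j => b.2 _⟩,
    L.ch.sub' hσ, L.cc.sub' hσ, L.ca.sub' hσ, L.cg.sub' hσ⟩

theorem CvT.sub' {ls : ℕ → Cy A ℂ} {ws : ℕ → Fm A ℝ} (T : CvT A ls ws l w) {σ : ℕ → ℕ}
    (hσ : StrictMono σ) : CvT A (fun j => ls (σ j)) (fun j => ws (σ j)) l w :=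
  ⟨fun j => T.tw _, T.lim, T.cl.sub' hσ, T.cw.sub' hσ, T.bd.imp fun _ b j => b _⟩

end Vale.Agent.P275NA
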