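import Vale.Agent.P275NA.Tr
import Vale.Agent.P275DG.Main
import Vale.Agent.P275HK.Max
import Mathlib.LinearAlgebra.Matrix.Charpoly.Univ
import Mathlib.Topology.Algebra.MvPolynomial

/-!
P275 (helper18): a priori estimates for the continuity method.
-/

set_option linter.all false

open scoped Matrix.Norms.Operator Topology ComplexOrder ContDiff ComplexConjugate
open Filter Set Matrix Complex Metric MeasureTheory
open Vale.Agent.P281Z.Hm
open Vale.Agent.P275GC Vale.Agent.P275GC.At Vale.Agent.P275HK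

noncomputable section

namespace Vale.Agent.P275NA

theorem cont_coeff {n : Type} [Fintype n] [DecidableEq n] (i : ℕ) :
    Continuous fun X : Mx n => X.charpoly.coeff i := by
  have h1 : (fun X : Mx n => X.charpoly.coeff i) = fun X : Mx n =>
      MvPolynomial.eval (fun p : n × n => X p.1 p.2) ((charpoly.univ ℂ n).coeff i) :=
    funext fun X => (charpoly.univ_coeff_eval₂Hom n (RingHom.id ℂ) (fun p : n × n => X p.1 p.2) i).symm
  rw [h1]
  exact (MvPolynomial.continuous_eval _).comp (continuous_pi fun p => (entL p.1 p.2).continuous)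

theorem coeff_bd {n : Type} [Fintype n] [DecidableEq n] (M : ℝ) :
    ∃ M' : ℝ, 0 ≤ M' ∧ ∀ a : Mx n, ‖a‖ ≤ M → ∀ q, ‖a.charpoly.coeff q‖ ≤ M' := by
  have c : Continuous fun a : Mx n => ∑ q ∈ Finset.range (Fintype.card n + 1), ‖a.charpoly.coeff q‖ :=
    continuous_finset_sum _ fun q _ => (cont_coeff q).norm
  obtain ⟨B, hB⟩ := (isCompact_closedBall (0 : Mx n) M).exists_bound_of_continuousOn c.continuousOn
  refine ⟨|B|, abs_nonneg _, fun a ha q => ?_⟩
  rcases lt_or_ge (Fintype.card n) q with p | p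
  · rw [Polynomial.coeff_eq_zero_of_natDegree_lt (by rwa [charpoly_natDegree_eq_dim]), norm_zero]
    exact abs_nonneg _
  · exact ((Finset.single_le_sum (f := fun q => ‖a.charpoly.coeff q‖) (fun _ _ => norm_nonneg _)
      (Finset.mem_range.2 (Nat.lt_succ_of_le p))).trans ((le_abs_self _).trans
        (hB a (mem_closedBall_zero_iff.2 ha)))).trans (le_abs_self _)

variable {C : Type} [TopologicalSpace C] {A : At C} {m n : ℕ} {i j : Fin A.N} {z : ℂ}
  {l : Cy A ℂ} {w : Fm A ℝ} {g : Cy A (Mn n)} {a h k : Fm A (Mn n)} {c ε : ℝ}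

theorem sm_nq {N : WithTop ℕ∞} {g' : Cy A (Mn m)} {h : Fm A (Mn m)} {u : Fm A (Mr m n)}
    (K : A.MtM N g k) (H : A.MtM N g' h) (hu : A.Hl u) :
    A.Sm N fun i z => nq (k i z) (h i z) (u i z) := fun i z hz =>
  (cd_nq (K.sm.at hz i) (pd_ne (K.pos i z hz)) (H.sm.at hz i) (hol_cd (hu.an hz i))).contDiffWithinAt

theorem hl_one : A.Hl fun _ _ => (1 : Mn n) := fun _ => differentiableOn_const _

variable [T2Space C]

/-- stability does not depend on the radius -/
theorem Stab.res {r : ℝ} {h1 : 1 < r} {h2 : r ≤ A.R} (ha : Hig A l g a) (hs : Stab A g a) :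
    Stab (A.res r h1 h2) g a := fun q S q0 q1 hS hI => by
  set T : Fin A.N → Fin A.N → ℂ → Submodule ℂ (Fin n → ℂ) → Submodule ℂ (Fin n → ℂ) :=
    fun i j z V => V.map (g i j z).mulVecLin
  have hT : ∀ i j k, ∀ z ∈ A.O i j, z ∈ A.O i k → ∀ y,
      T i k z y = T i j z (T j k (A.tr i j z) y) := fun i j k z p p' y => by
    simp only [T, ha.cc.mul i j k z p p', mulVecLin_mul, Submodule.map_comp]
  have sub : Sub A g q (A.xt T S) := ⟨fun i z hz => ?_, fun i j z hz => xt_tr hT hS.tr hz⟩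
  · have inv : Inv A a (A.xt T S) := fun i z hz v hv => by
      obtain ⟨j, p, p'⟩ := ex_unit hz i
      have p2 := mem_ball_zero_iff.2 (p'.trans h1)
      rw [xt_eq hT hS.tr p p2] at hv ⊢
      obtain ⟨y, hy, rfl⟩ := hv
      refine ⟨l i j z • (a j (A.tr i j z) *ᵥ y), Submodule.smul_mem _ _ (hI j _ p2 y hy), ?_⟩
      rw [mulVecLin_apply, mulVecLin_apply, mulVec_mulVec, ha.tr i j z p, mulVec_smul, mulVec_mulVec,
        smul_mulVec]
    have e : degS (A.res r h1 h2) g q S = degS A g q (A.xt T S) := by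
      refine congrArg (Real.pi⁻¹ * ·) ((res_int (A := A) _).trans (int_congr fun i z hz => ?_))
      have p2 := mem_ball_zero_iff.2 (hz.trans h1)
      obtain ⟨t, ht⟩ := hS.fr i z p2
      rw [P275DG.cvS_eq (ha.cc.res (h1 := h1) (h2 := h2)).mtM p2 ht,
        P275DG.cvS_eq ha.cc.mtM (mem_of_le hz.le) (t := t) ⟨ht.an, ht.inj, by
          filter_upwards [ht.rg, isOpen_ball.mem_nhds p2] with x b c
          exact b.trans (xt_self (T := T) hS.tr c).symm⟩, res_mtM]
    rw [e, res_degM]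
    exact hs q _ q0 q1 sub inv
  · obtain ⟨j, p, p'⟩ := ex_unit hz i
    have p2 := mem_ball_zero_iff.2 (p'.trans h1)
    obtain ⟨t, ht⟩ := hS.fr j _ p2
    refine ⟨fun x => g i j x * t (A.tr i j x), an_mul (ha.cc.an p) (ht.an.comp (an_tr p)),
      fun x y e => ht.inj (unit_inj (dne ha.cc p) (by simpa only [mulVec_mulVec] using e)), ?_⟩
    filter_upwards [xt_ev hT hS.tr p p2, (an_tr p).continuousAt.eventually ht.rg] with x b c
    rw [b, mulVecLin_mul, LinearMap.range_comp, c]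

theorem ec_eq [Nonempty C] (hn : 0 < n) (g : Cy A (Mn n)) :
    ec A g * (n * A.vol) = Real.pi * A.degM g :=
  div_mul_cancel₀ _ (mul_pos (Nat.cast_pos.2 hn) vol_pos).ne'

theorem ct_ρ_mul {u : Fm A ℝ} (hu : A.Ct u) : A.Ct fun i z => A.ρ i z * u i z :=
  fun i => (sm_ρ.ct i).mul (hu i)

theorem ct_cmul (c : ℝ) {u : Fm A ℝ} (hu : A.Ct u) : A.Ct fun i z => c * u i z :=
  fun i => continuousOn_const.mul (hu i)

/-- the integral of the trace of the equation -/
theorem int_tr (hg : A.Cc g) (K : A.MtM ∞ g k) (H : A.MtM ∞ g h) (e : Eqn A w a k h c ε)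
    (hc : c * (n * A.vol) = Real.pi * A.degM g) :
    ε * A.int (fun i z => A.ρ i z * nq (k i z) (h i z) 1) = ε * (n * A.vol) := by
  have d := (P275DG.deg A n g h hg H).2.2.2.1
  rw [int_congr' (v := fun i z => (c + ε) * n * A.ρ i z - ε * (A.ρ i z * nq (k i z) (h i z) 1))
    fun i z hz => by
      have := congrArg (fun x => (trace x).re) (e i z hz)
      simp only [HK, tr_hk, trace_smul, trace_sub, trace_one, smul_eq_mul, re_ofReal_mul, sub_re,
        Fintype.card_fin, natCast_re] at this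
      rw [this, nq_id]; ring,
    int_sub (ct_cmul _ sm_ρ.ct).in (ct_cmul _ (ct_ρ_mul (sm_nq K H hl_one).ct)).in, int_mul, int_mul,
    inv_mul_eq_iff_eq_mul₀ Real.pi_pos.ne', ← hc] at d
  rw [vol] at *
  linarith

/-- the maximum principle -/
theorem apriori [Nonempty C] (hn : 0 < n) (hg : A.Cc g) (K : A.MtM ∞ g k) (H : A.MtM ∞ g h)
    (e : Eqn A w a k h c ε) {M : ℝ} (h0 : 0 ≤ ε) (hM : 0 < ε → ∀ i, ∀ z ∈ ball (0 : ℂ) 1,
      nq (k i z) (k i z) (HK A w a k i z) ≤ (M * A.ρ i z) ^ 2) :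
    ∃ s : ℝ, 0 < s ∧ (∀ i, ∀ z ∈ ball (0 : ℂ) A.R, nq (k i z) (h i z) 1 ≤ s) ∧
      (∃ i z, ‖z‖ < 1 ∧ nq (k i z) (h i z) 1 = s) ∧ ε * s ≤ n * (|c| + ε + |M|) := by
  obtain ⟨i, z, z1, lm, mx⟩ := (fn_nq hg K H).exists_max (sm_nq K H hl_one).ct
  have hz : z ∈ ball (0 : ℂ) A.R := mem_of_le z1.le
  have pk := K.pos i z hz
  have ph := H.pos i z hz
  haveI : Nonempty (Fin n) := ⟨⟨0, hn⟩⟩
  have s0 := nq_pos pk ph (g := 1) one_ne_zero
  refine ⟨_, s0, mx, ⟨i, z, z1, rfl⟩, ?_⟩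
  rcases h0.eq_or_lt with rfl | hε
  · rw [zero_mul]; positivity
  obtain ⟨c2, id, -⟩ := homk _ _ (k i) (sa A w a i) (h i) (sa A w a i) (fun _ => 1) z (met K hz i)
    (met H hz i) analyticAt_const (by rw [Matrix.one_mul, Matrix.mul_one])
  have b1 := maxp.1 _ _ c2 lm
  have r0 := ρ_pos (A := A) (i := i) hz
  have b2 := ((nrm _ _).2 _ _ 1 (HK A w a k i z) 0 (|M| * A.ρ i z) pk ph (by positivity)).2.2.1
    (by rw [mul_pow, sq_abs, ← mul_pow]; exact hM hε i z (mem_ball_zero_iff.2 z1))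
  have b3 := sq_le_nq pk ph
  have b4 : (trace (1 * ad (k i z) (h i z) 1 * hk (h i) (sa A w a i) z)).re = A.ρ i z * ((c + ε) *
      nq (k i z) (h i z) 1 - ε * (trace ((k i z)⁻¹ * h i z * ((k i z)⁻¹ * h i z))).re) := by
    rw [show hk (h i) (sa A w a i) z = _ from e i z hz, Matrix.one_mul, ad_id, nq_id]
    simp only [Matrix.mul_smul, Matrix.mul_sub, Matrix.mul_one, trace_smul, trace_sub, smul_eq_mul,
      re_ofReal_mul, sub_re]
  rw [id, b4] at b1
  have b5 := nq_nonneg pk ph (dz (fun _ => (1 : Mn n)) z + cn (h i) z * 1 - 1 * cn (k i) z)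
  have b6 := nq_nonneg pk ph (ad (h i z) (h i z) (sa A w a i z) * 1 -
    1 * ad (k i z) (k i z) (sa A w a i z))
  have b7 := (abs_le.1 b2).1
  rw [Fintype.card_fin] at b3
  generalize (trace ((k i z)⁻¹ * h i z * ((k i z)⁻¹ * h i z))).re = t at *
  generalize nq (k i z) (h i z) 1 = s at *
  have b8 : A.ρ i z * (ε * t) ≤ A.ρ i z * ((c + ε + |M|) * s) := by
    simp only [HK] at b7
    linarith
  have b9 := le_of_mul_le_mul_left b8 r0
  have n0 : (0 : ℝ) ≤ n := Nat.cast_nonneg n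
  refine le_of_mul_le_mul_right ?_ s0
  nlinarith [mul_le_mul_of_nonneg_left b3 h0, mul_le_mul_of_nonneg_left b9 n0,
    mul_le_mul_of_nonneg_left (mul_le_mul_of_nonneg_right (le_abs_self c) s0.le) n0]

/-- the bound for the curvature -/
theorem HK_le (K : A.MtM ∞ g k) (H : A.MtM ∞ g h) (e : Eqn A w a k h c ε) {s B : ℝ} (h0 : 0 ≤ ε)
    (hs : ∀ i, ∀ z ∈ ball (0 : ℂ) A.R, nq (k i z) (h i z) 1 ≤ s) (b1 : |c + ε| ≤ B)
    (b2 : ε * s ≤ B) (i) (hz : z ∈ ball (0 : ℂ) A.R) :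
    nq (h i z) (h i z) (HK A w a h i z) ≤ ((n + 2) * B * A.ρ i z) ^ 2 := by
  have pk := K.pos i z hz
  have ph := H.pos i z hz
  rw [e i z hz, nq_smul, norm_real, Real.norm_eq_abs, sq_abs, mul_pow, mul_comm]
  refine mul_le_mul_of_nonneg_right ((nq_sub_le ph ph _ _).trans ?_) (sq_nonneg _)
  rw [nq_smul, nq_smul, nq_one ph, norm_real, norm_real, Real.norm_eq_abs, Real.norm_of_nonneg h0,
    Fintype.card_fin]
  have c1 := pow_le_pow_left₀ (abs_nonneg _) b1 2
  have c2 := pow_le_pow_left₀ (mul_nonneg h0 (nq_nonneg pk ph 1))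
    ((mul_le_mul_of_nonneg_left (hs i z hz) h0).trans b2) 2
  have c3 := mul_le_mul_of_nonneg_left (nq_rel pk ph) (sq_nonneg ε)
  have n0 : (0 : ℝ) ≤ n := Nat.cast_nonneg n
  nlinarith [mul_le_mul_of_nonneg_left c1 n0, mul_nonneg (sq_nonneg B) n0, sq_nonneg (n * B),
    sq_nonneg B]

end Vale.Agent.P275NA
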