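import Vale.Agent.P275NA.Tr
import Vale.Agent.P275HK.Hom
import Vale.Agent.P275CT.Reg

/-!
P275 (helper18): regularity of limits; limits of changes of frames.
-/

set_option linter.all false

open scoped Matrix.Norms.Operator Topology ComplexOrder ContDiff ComplexConjugate
open Filter Set Matrix Complex Metric MeasureTheory
open Vale.Agent.P281Z.Hm
open Vale.Agent.P275GC Vale.Agent.P275GC.At Vale.Agent.P275HK

noncomputable section

namespace Vale.Agent.P275NA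

theorem Cq.smul {F : Type} [NormedAddCommGroup F] [NormedSpace ℂ F] {x : ℂ} {s : ℕ → ℂ → ℂ}
    {u : ℕ → ℂ → F} {c : ℂ} {y : F} (hs : Cq s x c) (hu : Cq u x y) :
    Cq (fun j z => s j z • u j z) x (c • y) := Tendsto.smul hs hu

theorem Cq.add {F : Type} [NormedAddCommGroup F] {x : ℂ} {u v : ℕ → ℂ → F} {y y' : F}
    (hu : Cq u x y) (hv : Cq v x y') : Cq (fun j z => u j z + v j z) x (y + y') := Tendsto.add hu hv

theorem Cq.sub {F : Type} [NormedAddCommGroup F] {x : ℂ} {u v : ℕ → ℂ → F} {y y' : F}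
    (hu : Cq u x y) (hv : Cq v x y') : Cq (fun j z => u j z - v j z) x (y - y') := Tendsto.sub hu hv

theorem Cq.br {n : Type} [Fintype n] [DecidableEq n] {x : ℂ} {h a : ℕ → ℂ → Mx n} {y b : Mx n}
    (hh : Cq h x y) (h0 : y.det ≠ 0) (ha : Cq a x b) :
    Cq (fun j z => br (h j z) (a j z)) x (br y b) :=
  (ha.mmul (((hh.minv h0).mmul ha.ct).mmul hh)).sub ((((hh.minv h0).mmul ha.ct).mmul hh).mmul ha)

theorem mul_cn {n : Type} [Fintype n] [DecidableEq n] {h : ℂ → Mx n} {z : ℂ} (h0 : (h z).det ≠ 0) :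
    h z * cn h z = dz h z := mul_nonsing_inv_cancel_left _ _ h0.isUnit

theorem cn_smul {n : Type} [Fintype n] [DecidableEq n] {h : ℂ → Mx n} {z c : ℂ} (hc : c ≠ 0)
    (hd : DifferentiableAt ℝ h z) (h0 : (h z).det ≠ 0) : cn (fun x => c • h x) z = cn h z := by
  rw [cn, dz, wd_msmul c hd, inv_eq_right_inv (A := c • h z) (B := c⁻¹ • (h z)⁻¹) (by
    rw [Matrix.smul_mul, Matrix.mul_smul, smul_smul, mul_inv_cancel₀ hc, one_smul,
      mul_nonsing_inv _ h0.isUnit]), Matrix.smul_mul, Matrix.mul_smul, smul_smul,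
    inv_mul_cancel₀ hc, one_smul, cn]

variable {C : Type} [TopologicalSpace C] {A : At C} {m n : ℕ} {i j : Fin A.N} {z : ℂ}
  {l : Cy A ℂ} {w : Fm A ℝ} {g : Cy A (Mn n)} {a h k : Fm A (Mn n)} {ls : ℕ → Cy A ℂ}
  {ws : ℕ → Fm A ℝ} {gs : ℕ → Cy A (Mn n)} {as hs Φ : ℕ → Fm A (Mn n)}

theorem hl_ct {F : Type} [NormedAddCommGroup F] [NormedSpace ℂ F] {u : Fm A F} (hu : A.Hl u) :
    A.Ct u := fun i => (hu i).continuousOn

theorem sm_fm {N : WithTop ℕ∞} {Φ : Fm A (Mn n)} (hΦ : A.Hl Φ) (H : A.Sm N h) : A.Sm N (fm A Φ h) :=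
  fun i z hz => (cd_mul (cd_mul (cd_ct (hol_cd (hΦ.an hz i))) (H.at hz i))
    (hol_cd (hΦ.an hz i))).contDiffWithinAt

theorem ct_cn (H : A.MtM 1 g h) : A.Ct fun i => cn (h i) := fun i z hz =>
  (cd_cn (N := 0) (by rw [zero_add]; exact H.sm.at hz i)
    (pd_ne (H.pos i z hz))).continuousAt.continuousWithinAt

theorem cq_sa (hw : A.Ct w) (cw : CvF A ws w) (ha : A.Ct a) (ca : CvF A as a)
    (hz : z ∈ ball (0 : ℂ) A.R) (i) : Cq (fun j => sa A (ws j) (as j) i) z (sa A w a i z) :=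
  ((cw.cq hw hz i).app (T := fun x => ((√x : ℝ) : ℂ))
    (continuous_ofReal.comp Real.continuous_sqrt).continuousAt).smul (ca.cq ha hz i)

/-- `HK` in a new frame -/
theorem HK_fm {Φ : Fm A (Mn n)} (hΦ : A.Hl Φ) (h0 : (Φ i z).det ≠ 0) (H : A.MtM ∞ g h)
    (hz : z ∈ ball (0 : ℂ) A.R) : HK A w (fe A Φ a) (fm A Φ h) i z = fe A Φ (HK A w a h) i z :=
  hk_frame chg (met H hz i) (hΦ.an hz i) h0 (by
    simp only [sa, fe, Matrix.mul_smul, Matrix.smul_mul, Matrix.mul_assoc,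
      mul_nonsing_inv_cancel_left _ _ h0.isUnit])

/-- **regularity of limits** -/
theorem lreg (hw : Tw A l w) (cw : CvF A ws w) (H : ∀ j, A.MtM ∞ (gs j) (hs j)) (ha : A.Hl a)
    (hh : A.MtM 1 g h) (L : Lim A gs as hs Φ g a h) (Γ : Fin A.N → ℂ × Mn n → Mn n)
    (hΓ : ∀ i, ∀ z ∈ ball (0 : ℂ) A.R, ContDiffAt ℝ ∞ (Γ i) (z, h i z))
    (cΓ : CvF A (fun j => fe A (Φ j) (HK A (ws j) (as j) (hs j))) fun i z => Γ i (z, h i z)) :
    A.MtM ∞ g h ∧ ∀ i, ∀ z ∈ ball (0 : ℂ) A.R, HK A w a h i z = Γ i (z, h i z) := by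
  have sp : ∀ j i, ∀ z ∈ ball (0 : ℂ) A.R, (fm A (Φ j) (hs j) i z).PosDef := fun j i z hz =>
    gram_pd ((H j).pos i z hz) (unit_inj (L.ne j i z hz))
  have c0 : A.Ct fun i z => Γ i (z, h i z) := fun i z hz => ((hΓ i z hz).continuousAt.comp
    (f := fun z => (z, h i z)) (continuousAt_id.prodMk (hh.sm.ct.at hz i))).continuousWithinAt
  have key := fun i => P275CT.reg_lim isOpen_ball (s := fun j => fm A (Φ j) (hs j) i) (h := h i)
    (p := fun z => h i z * cn (h i) z) (Γ := fun p => Γ i p - br p.2 (sa A w a i p.1))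
    (fun j => (sm_fm (L.an j) (H j).sm i).of_le two_le) (fun j => sp j i) (hh.pos i)
    (fun z hz => by
      have b : ContDiffAt ℝ ∞ (fun p : ℂ × Mn n => sa A w a i p.1) (z, h i z) :=
        ((cd_sa hw ha).at hz i).comp (z, h i z) contDiffAt_fst
      have b' := cd_ad contDiffAt_snd (pd_ne (hh.pos i z hz)) contDiffAt_snd b
      exact (hΓ i z hz).sub ((cd_mul b b').sub (cd_mul b' b)))
    (L.ch i)
    (of_cq ((hh.sm.ct i).mul (ct_cn hh i)) fun z hz =>
      ((L.ch.cq hh.sm.ct hz i).mmul (L.cc.cq (ct_cn hh) hz i)).congr' isOpen_ball hz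
        fun j x hx => mul_cn (pd_ne (sp j i x hx)))
    (of_cq (fun z hz => by
      have b := (cd_sa hw ha).at hz i
      have b0 : ContDiffAt ℝ 0 (h i) z := (hh.sm.at hz i).of_le zero_le_one
      have b' := cd_ad b0 (pd_ne (hh.pos i z hz)) b0 (b.of_le zero_le)
      exact (c0 i z hz).sub ((cd_mul (b.of_le zero_le) b').sub
        (cd_mul b' (b.of_le zero_le))).continuousAt.continuousWithinAt) fun z hz =>
      ((cΓ.cq c0 hz i).sub ((L.ch.cq hh.sm.ct hz i).br (pd_ne (hh.pos i z hz))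
        (cq_sa hw.sm.ct cw (hl_ct ha) L.ca hz i))).congr' isOpen_ball hz fun j x hx => by
          rw [← HK_fm (L.an j) (L.ne j i x hx) (H j) hx, HK, hk, add_sub_cancel_right])
  refine ⟨⟨fun i => (key i).1, hh.pos, hh.tr⟩, fun i z hz => ?_⟩
  rw [HK, hk, ((key i).2 z hz).1, sub_add_cancel]

/-- limits of metrics in convergent frames -/
theorem frame_lim {V : ℕ → Fm A (Mn n)} {v : Fm A (Mn n)} (hV : ∀ j, A.Hl (V j)) (hv : A.Hl v)
    (nV : ∀ j i, ∀ z ∈ ball (0 : ℂ) A.R, (V j i z).det ≠ 0)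
    (nv : ∀ i, ∀ z ∈ ball (0 : ℂ) A.R, (v i z).det ≠ 0) (cV : CvF A V v)
    (H : ∀ j, A.Sm 1 (hs j)) (p : ∀ j i, ∀ z ∈ ball (0 : ℂ) A.R, (hs j i z).det ≠ 0)
    (hh : A.MtM 1 g h) (ch : CvF A hs h) (cc : CvF A (fun j i => cn (hs j i)) fun i => cn (h i)) :
    CvF A (fun j => fm A (V j) (hs j)) (fm A v h) ∧
      CvF A (fun j i => cn (fm A (V j) (hs j) i)) fun i => cn (fm A v h i) := by
  have q := fun i z hz => cV.cq (z := z) (hl_ct hv) hz i
  refine ⟨cvF_of (sm_fm hv hh.sm).ct fun i z hz =>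
    ((q i z hz).ct.mmul (ch.cq hh.sm.ct hz i)).mmul (q i z hz), cvF_of (fun i z hz => ?_)
      fun i z hz => ?_⟩
  · exact (cd_cn (N := 0) (by rw [zero_add]; exact (sm_fm hv hh.sm).at hz i)
      (pd_ne (gram_pd (hh.pos i z hz) (unit_inj (nv i z hz))))).continuousAt.continuousWithinAt
  · have e := cn_chg ((hh.sm.at hz i).differentiableAt one_ne_zero) (pd_ne (hh.pos i z hz))
      (hv.an hz i) (nv i z hz)
    have d := cq_of isOpen_ball ((cV i).deriv (Eventually.of_forall fun j => hV j i) isOpen_ball) hz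
      (hv.an hz i).deriv.continuousAt
    have b := (q i z hz).minv (nv i z hz)
    refine e ▸ (((b.mmul (cc.cq (ct_cn hh) hz i)).mmul (q i z hz)).add (b.mmul d)).congr'
      isOpen_ball hz fun j x hx => ?_
    exact (cn_chg (((H j).at hx i).differentiableAt one_ne_zero) (p j i x hx) ((hV j).an hx i)
      (nV j i x hx)).symm

end Vale.Agent.P275NA
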