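import Vale.Agent.P275NA.Ex
import Vale.Agent.P275CP.Main
import Vale.Agent.P275KR.Key
import Vale.Agent.P275HK.Uni
import Vale.Agent.P275FR.Open

/-!
P275 (helper18): the unconditional blocks.
-/

namespace Vale.Agent.P275NA

open Vale.Agent.P275GC

variable {C : Type} [TopologicalSpace C] [T2Space C] [ConnectedSpace C]

theorem clo_ok (A : At C) : CLO A := clo A (P275CP.cpt A) fun _ _ _ => P275KR.key _

theorem uni_ok (A : At C) : UNI A := P275HK.uni (P275KR.key A) (P275DG.cw A)

theorem ex_of_open (A : At C) (op : OPEN A) : EX A := ex A op (clo_ok A)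

/-- **Hitchin-Simpson** -/
theorem ex_ok (A : At C) : EX A := haveI := A.compactSpace; ex_of_open A (P275FR.opn A)

end Vale.Agent.P275NA
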