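import Vale.Agent.P275NA.Apr
import Vale.Agent.P275NA.Lrg
import Vale.Agent.P275KR.Main

/-!
P275 (helper18): closedness in the continuity method.
-/

set_option linter.all false

open scoped Matrix.Norms.Operator Topology ComplexOrder ContDiff ComplexConjugate
open Filter Set Matrix Complex Metric MeasureTheory
open Vale.Agent.P281Z.Hm
open Vale.Agent.P275GC Vale.Agent.P275GC.At Vale.Agent.P275HK

noncomputable section

namespace Vale.Agent.P275NA

section alg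
variable {n : Type} [Fintype n] [DecidableEq n] {Φ : Mx n} {s : ℝ}

/-- a multiple of the inverse -/
def un (s : ℝ) (Φ : Mx n) : Mx n := ((√s : ℝ) : ℂ) • Φ⁻¹

theorem un_gram (hΦ : Φ.det ≠ 0) (hs : 0 ≤ s) (h : Mx n) :
    (un s Φ)ᴴ * (Φᴴ * h * Φ) * un s Φ = (s : ℂ) • h := by
  simp only [un, conjTranspose_smul, star_def, conj_ofReal, Matrix.smul_mul, Matrix.mul_smul,
    smul_smul, ← ofReal_mul, Real.mul_self_sqrt hs, conjTranspose_nonsing_inv, Matrix.mul_assoc,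
    mul_nonsing_inv _ hΦ.isUnit, Matrix.mul_one, nonsing_inv_mul_cancel_left _ _ (ct_unit hΦ.isUnit)]

theorem un_nq (hΦ : Φ.det ≠ 0) (hs : 0 ≤ s) (k h : Mx n) :
    nq k (Φᴴ * h * Φ) (un s Φ) = s * nq k h 1 := by
  rw [nq_eq, un_gram hΦ hs, nq_id, Matrix.mul_smul, trace_smul, smul_eq_mul, re_ofReal_mul]

theorem un_rel (hΦ : Φ.det ≠ 0) (hs : 0 ≤ s) (k h : Mx n) :
    un s Φ * k⁻¹ * (un s Φ)ᴴ * (Φᴴ * h * Φ) = (s : ℂ) • (Φ⁻¹ * (k⁻¹ * h) * Φ) := by
  simp only [un, conjTranspose_smul, star_def, conj_ofReal, Matrix.smul_mul, Matrix.mul_smul,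
    smul_smul, ← ofReal_mul, Real.mul_self_sqrt hs, conjTranspose_nonsing_inv, Matrix.mul_assoc,
    nonsing_inv_mul_cancel_left _ _ (ct_unit hΦ.isUnit)]

theorem un_det (hΦ : Φ.det ≠ 0) (hs : 0 < s) : (un s Φ).det ≠ 0 := by
  rw [un, det_smul]
  exact mul_ne_zero (pow_ne_zero _ (ofReal_ne_zero.2 (Real.sqrt_pos.2 hs).ne'))
    (isUnit_nonsing_inv_det _ hΦ.isUnit).ne_zero

theorem un_smul (t : ℝ) (ht : 0 ≤ t) : ((√t : ℝ) : ℂ) • un s Φ = un (t * s) Φ := by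
  rw [un, un, smul_smul, ← ofReal_mul, Real.sqrt_mul ht]

theorem det_of_rank {u : Mx n} (h : u.rank = Fintype.card n) : u.det ≠ 0 :=
  ((isUnit_iff_isUnit_det _).1 (mulVec_surjective_iff_isUnit.1 (LinearMap.range_eq_top.1
    (Submodule.eq_top_of_finrank_eq (h.trans (Module.finrank_fintype_fun_eq_card ℂ).symm))))).ne_zero

end alg

variable {C : Type} [TopologicalSpace C] {A : At C} {n : ℕ} {i j : Fin A.N} {z : ℂ}
  {l : Cy A ℂ} {w : Fm A ℝ} {g g' : Cy A (Mn n)} {a a' h h' k u : Fm A (Mn n)} {ls : ℕ → Cy A ℂ}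
  {ws : ℕ → Fm A ℝ} {gs : ℕ → Cy A (Mn n)} {as ks hs Φ : ℕ → Fm A (Mn n)} {c ε m : ℝ}
  {εs s : ℕ → ℝ}

theorem hl_un {Φ : Fm A (Mn n)} (hΦ : A.Hl Φ) (h0 : ∀ i, ∀ z ∈ ball (0 : ℂ) A.R, (Φ i z).det ≠ 0)
    (s : ℝ) : A.Hl fun i z => un s (Φ i z) := fun i z hz =>
  (an_msmul _ (an_inv (hΦ.an hz i) (h0 i z hz))).differentiableAt.differentiableWithinAt

/-- Montel for families -/
theorem montel_fm {m : ℕ} {U : ℕ → Fm A (Mr n m)} (hU : ∀ j, A.Hl (U j)) {M : ℝ} (h0 : 0 ≤ M)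
    (hM : ∀ j i, ∀ z ∈ ball (0 : ℂ) A.R, ‖U j i z‖ ≤ M) :
    ∃ (σ : ℕ → ℕ) (u : Fm A (Mr n m)), StrictMono σ ∧ A.Hl u ∧ CvF A (fun j => U (σ j)) u := by
  obtain ⟨σ, v, hσ, hv, t⟩ := P275KR.mon.1 (Fin A.N → Mr n m) (ball 0 A.R) (fun j z i => U j i z) M
    isOpen_ball (fun j z hz => AnalyticAt.pi fun i => (hU j).an hz i)
    fun j z hz => (pi_norm_le_iff_of_nonneg h0).2 fun i => hM j i z hz
  have hu : A.Hl fun i z => v z i := fun i z hz =>
    (analyticAt_pi_iff.1 (hv z hz) i).differentiableAt.differentiableWithinAt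
  exact ⟨σ, _, hσ, hu, cvF_of (hl_ct hu) fun i z hz =>
    (cq_of isOpen_ball t hz (hv z hz).continuousAt).app (T := fun y => y i)
      (continuous_apply i).continuousAt⟩

/-- the limit of the normalised inverse frames is a homomorphism -/
theorem hom_lim (L : Lim A gs as hs Φ g' a' h') (cg : CvC A gs g) (ca : CvF A as a) (hu : A.Hl u)
    (cu : CvF A (fun j i z => un (s j) (Φ j i z)) u) : Hom A g a g' a' u where
  hol := hu
  tr i j z hz := tendsto_nhds_unique (((cu i).tendsto_at hz.1).mul ((cg i j).tendsto_at hz))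
    ((((L.cg i j).tendsto_at hz).mul ((cu j).tendsto_at (tr_ball hz))).congr fun q => by
      simp only [un, fc, Matrix.mul_smul, Matrix.smul_mul,
        mul_nonsing_inv_cancel_right _ _ (L.ne q j _ (tr_ball hz)).isUnit])
  com i z hz := tendsto_nhds_unique (((cu i).tendsto_at hz).mul ((ca i).tendsto_at hz))
    ((((L.ca i).tendsto_at hz).mul ((cu i).tendsto_at hz)).congr fun q => by
      simp only [un, fe, Matrix.mul_smul, Matrix.smul_mul,
        mul_nonsing_inv_cancel_right _ _ (L.ne q i _ hz).isUnit])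

variable [T2Space C]

/-- the limit equation -/
theorem eqn_lim (hw : Tw A l w) (cw : CvF A ws w) (H : ∀ j, A.MtM ∞ (gs j) (hs j)) (ha : A.Hl a')
    (hh : A.MtM 1 g' h') (L : Lim A gs as hs Φ g' a' h') (K : A.MtM ∞ g k) (ck : CvF A ks k)
    (E : ∀ j, Eqn A (ws j) (as j) (ks j) (hs j) c (εs j)) (hs0 : ∀ j, 0 < s j)
    (tε : Tendsto εs atTop (𝓝 ε)) (tm : Tendsto (fun j => εs j * s j) atTop (𝓝 m)) (hu : A.Hl u)
    (cu : CvF A (fun j i z => un (s j)⁻¹ (Φ j i z)) u) :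
    A.MtM ∞ g' h' ∧ ∀ i, ∀ z ∈ ball (0 : ℂ) A.R, HK A w a' h' i z = (A.ρ i z : ℂ) •
      (((c + ε : ℝ) : ℂ) • 1 - (m : ℂ) • (u i z * (k i z)⁻¹ * (u i z)ᴴ * h' i z)) := by
  have sm : ∀ i, ∀ z ∈ ball (0 : ℂ) A.R, ∀ y, ContDiffAt ℝ ∞ (fun p : ℂ × Mn n => (A.ρ i p.1 : ℂ) •
      (((c + ε : ℝ) : ℂ) • (1 : Mn n) - (m : ℂ) • (u i p.1 * (k i p.1)⁻¹ * (u i p.1)ᴴ * p.2)))
      (z, y) := fun i z hz y => by
    have b : ContDiffAt ℝ ∞ (u i) z := hol_cd (hu.an hz i)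
    exact ((P275HK.cd_ofReal (sm_ρ.at hz i)).comp (z, y) contDiffAt_fst).smul
      (contDiffAt_const.sub ((cd_mul ((cd_mul (cd_mul b (cd_inv (K.sm.at hz i)
        (pd_ne (K.pos i z hz)))) (cd_ct b)).comp (z, y) contDiffAt_fst) contDiffAt_snd).const_smul (m : ℂ)))
  refine lreg hw cw H ha hh L _ (fun i z hz => sm i z hz _) (cvF_of (fun i z hz =>
    ((sm i z hz _).continuousAt.comp (f := fun z => (z, h' i z)) (continuousAt_id.prodMk
      (hh.sm.ct.at hz i))).continuousWithinAt) fun i z hz => ?_)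
  have q := cu.cq (hl_ct hu) hz i
  refine ((cq_const (P275HK.cd_ofReal (sm_ρ.at hz i)).continuousAt).smul (((cq_seq
    ((continuous_ofReal.tendsto _).comp (tε.const_add c))).smul (cq_const (f := fun _ => (1 : Mn n))
      continuousAt_const)).sub ((cq_seq ((continuous_ofReal.tendsto _).comp tm)).smul
        (((q.mmul ((ck.cq K.sm.ct hz i).minv (pd_ne (K.pos i z hz)))).mmul q.ct).mmul
          (L.ch.cq hh.sm.ct hz i))))).congr' isOpen_ball hz fun j x hx => ?_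
  have d := L.ne j i x hx
  rw [fe, E j i x hx, fm, un_rel d (inv_pos.2 (hs0 j)).le]
  simp only [Function.comp, Matrix.mul_smul, Matrix.smul_mul, Matrix.mul_sub, Matrix.sub_mul,
    Matrix.mul_one, nonsing_inv_mul _ d.isUnit, smul_smul, ← ofReal_mul,
    mul_inv_cancel_right₀ (hs0 j).ne']

/-- the use of stability -/
theorem key_step [Nonempty C] (key : KEY A) (hn : 0 < n) (hw : Tw A l w) (ha : Hig A l g a)
    (ha' : Hig A l g' a') (K : A.MtM ∞ g k) (H : A.MtM ∞ g' h') (hu : Hom A g a g' a' u)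
    (st : Stab A g a) (h0 : 0 ≤ ε) (e : ∀ i, ∀ z ∈ ball (0 : ℂ) A.R, HK A w a' h' i z =
      (A.ρ i z : ℂ) • (((ec A g + ε : ℝ) : ℂ) • 1 -
        (m : ℂ) • (u i z * (k i z)⁻¹ * (u i z)ᴴ * h' i z)))
    (hm : m * A.int (fun i z => A.ρ i z * nq (k i z) (h' i z) (u i z)) = ε * (n * A.vol))
    (ne : ∃ i, ∃ z ∈ ball (0 : ℂ) A.R, u i z ≠ 0) (i) (hz : z ∈ ball (0 : ℂ) A.R) :
    ∀ᶠ x in 𝓝[≠] z, (u i x).det ≠ 0 := by
  obtain ⟨r, q, S, rq, sub, inv, ker, b⟩ := key n n l w g a g' a' h' u hw ha ha' H hu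
  have c1 := ct_cmul ((ec A g + ε) * r) (sm_ρ (A := A)).ct
  have c2 := ct_cmul m (ct_ρ_mul (sm_nq K H hu.hol).ct)
  have b1 := b (fun i z => (ec A g + ε) * r * A.ρ i z - m * (A.ρ i z * nq (k i z) (h' i z) (u i z)))
    (fun i => (c1 i).sub (c2 i)) fun i z hz t ht et => by
      have p := H.pos i z hz
      rw [e i z hz]
      simp only [Matrix.mul_smul, Matrix.mul_sub, Matrix.mul_one, trace_smul, trace_sub, smul_eq_mul,
        re_ofReal_mul, sub_re, tr_pr p ht, ← Matrix.mul_assoc, pr_mul p ht et.ge, Fintype.card_fin,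
        natCast_re]
      rw [nq, ad, trace_mul_comm _ (u i z)]
      simp only [← Matrix.mul_assoc]
      exact le_of_eq (by ring)
  rw [int_sub c1.in c2.in, int_mul, int_mul, hm, le_inv_mul_iff₀ Real.pi_pos] at b1
  rcases Nat.eq_zero_or_pos q with rfl | q0
  · exact (ker i z hz).2.mono fun x hx => det_of_rank (by rw [hx, Fintype.card_fin]; exact rq)
  exfalso
  rcases (show q ≤ n by omega).eq_or_lt with rfl | q1
  · obtain ⟨i, z, hz, ne⟩ := ne
    obtain ⟨t, ht⟩ := sub.fr i z hz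
    refine ne (Matrix.ext_of_mulVec_single fun j => ((ker i z hz).1 _ ?_).trans (zero_mulVec _).symm)
    rw [← ht.rg.self_of_nhds]
    exact mulVec_surjective_iff_isUnit.2 (mulVec_injective_iff_isUnit.1 ht.inj) _
  · have b2 := mul_lt_mul_of_pos_left (st q S q0 q1 sub inv) Real.pi_pos
    have b3 := ec_eq (A := A) hn g
    have b4 : (n : ℝ) = r + q := by rw [← rq, Nat.cast_add]
    have n0 : (0 : ℝ) < n := Nat.cast_pos.2 hn
    have b5 := mul_le_mul_of_nonneg_left b1 n0.le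
    have b6 : 0 ≤ ε * q * (n * A.vol) := mul_nonneg (by positivity) (mul_pos n0 vol_pos).le
    rw [show A.int A.ρ = A.vol from rfl] at b5
    have b7 : (n : ℝ) * ((ec A g + ε) * r * A.vol - ε * (n * A.vol)) =
        r * (Real.pi * A.degM g) - ε * q * (n * A.vol) := by
      rw [← b3]; linear_combination (-ε * n * A.vol) * b4
    have b8 : n * (Real.pi * (A.degM g - degS A g q S)) = r * (Real.pi * A.degM g) +
        (Real.pi * (q * A.degM g) - Real.pi * (n * degS A g q S)) := by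
      linear_combination (Real.pi * A.degM g) * b4
    linarith

omit [T2Space C] in
/-- the pull back of a metric along an isomorphism -/
theorem mtm_pull {N : WithTop ℕ∞} (H : A.MtM N g' h') (hu : A.Hl u)
    (tr : ∀ i j, ∀ z ∈ A.O i j, u i z * g i j z = g' i j z * u j (A.tr i j z))
    (nu : ∀ i, ∀ z ∈ ball (0 : ℂ) A.R, (u i z).det ≠ 0) : A.MtM N g (fm A u h') :=
  ⟨sm_fm hu H.sm, fun i z hz => gram_pd (H.pos i z hz) (unit_inj (nu i z hz)), fun i j z hz => by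
    have e := congrArg (fun x => xᴴ * h' i z * x) (tr i j z hz)
    simp only [conjTranspose_mul, Matrix.mul_assoc] at e
    simp only [fm, H.tr i j z hz, Matrix.mul_assoc, e]⟩

omit [T2Space C] in
theorem HK_pull (H : A.MtM ∞ g' h') (hu : Hom A g a g' a' u) (nu : (u i z).det ≠ 0)
    (hz : z ∈ ball (0 : ℂ) A.R) :
    HK A w a (fm A u h') i z = (u i z)⁻¹ * HK A w a' h' i z * u i z :=
  hk_frame chg (met H hz i) (hu.hol.an hz i) nu (by
    simp only [sa, Matrix.mul_smul, Matrix.smul_mul, hu.com i z hz])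

omit [T2Space C] in
theorem Hom.smul (hu : Hom A g a g' a' u) (c : ℂ) : Hom A g a g' a' fun i z => c • u i z :=
  ⟨fun i => (hu.hol i).const_smul c, fun i j z hz => by
    rw [Matrix.smul_mul, Matrix.mul_smul, hu.tr i j z hz], fun i z hz => by
    rw [Matrix.smul_mul, Matrix.mul_smul, hu.com i z hz]⟩

/-- the last step -/
theorem clo_end (hw : Tw A l w) (H : ∀ j, A.MtM ∞ (gs j) (hs j)) (K : A.MtM ∞ g k)
    (H' : A.MtM ∞ g' h') (L : Lim A gs as hs Φ g' a' h') (hu : Hom A g a g' a' u)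
    (nu : ∀ i, ∀ z ∈ ball (0 : ℂ) A.R, (u i z).det ≠ 0) (s0 : ∀ j, 0 < s j)
    (cu : CvF A (fun j i z => un (s j)⁻¹ (Φ j i z)) u) {s' : ℕ → ℝ} {t : ℝ} (t0 : 0 < t)
    (s1 : ∀ j, 0 < s' j) (ts : Tendsto (fun j => s' j * s j) atTop (𝓝 t))
    (e : ∀ i, ∀ z ∈ ball (0 : ℂ) A.R, HK A w a' h' i z = (A.ρ i z : ℂ) • (((c + ε : ℝ) : ℂ) • 1 -
      ((ε * t : ℝ) : ℂ) • (u i z * (k i z)⁻¹ * (u i z)ᴴ * h' i z))) :
    ∃ h, A.MtM ∞ g h ∧ Eqn A w a k h c ε ∧ CvF A (fun j i z => (s' j : ℂ) • hs j i z) h ∧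
      CvF A (fun j i => cn (hs j i)) fun i => cn (h i) := by
  have hv := hu.smul (√t : ℝ)
  have nv : ∀ i, ∀ z ∈ ball (0 : ℂ) A.R, (((√t : ℝ) : ℂ) • u i z).det ≠ 0 := fun i z hz => by
    rw [det_smul]
    exact mul_ne_zero (pow_ne_zero _ (ofReal_ne_zero.2 (Real.sqrt_pos.2 t0).ne')) (nu i z hz)
  obtain ⟨c1, c2⟩ := frame_lim (V := fun j i z => un (s' j) (Φ j i z))
    (fun j => hl_un (L.an j) (L.ne j) _) hv.hol (fun j i z hz => un_det (L.ne j i z hz) (s1 j)) nv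
    (cvF_of (hl_ct hv.hol) fun i z hz => ((cq_seq (((continuous_ofReal.comp
      Real.continuous_sqrt).tendsto _).comp ts)).smul (cu.cq (hl_ct hu.hol) hz i)).congr'
        isOpen_ball hz fun j x _ => (un_smul _ (mul_pos (s1 j) (s0 j)).le).trans
          (by rw [mul_inv_cancel_right₀ (s0 j).ne']))
    (fun j => (sm_fm (L.an j) (H j).sm).of_le (mod_cast le_top))
    (fun j i z hz => pd_ne (gram_pd ((H j).pos i z hz) (unit_inj (L.ne j i z hz))))
    ⟨H'.sm.of_le (mod_cast le_top), H'.pos, H'.tr⟩ L.ch L.cc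
  refine ⟨_, mtm_pull H' hv.hol hv.tr nv, fun i z hz => ?_, fun i => (c1 i).congr fun j z hz =>
    un_gram (L.ne j i z hz) (s1 j).le _, fun i => (c2 i).congr fun j z hz => ?_⟩
  · have d := (nv i z hz).isUnit
    have b : ((ε * t : ℝ) : ℂ) • (u i z * (k i z)⁻¹ * (u i z)ᴴ * h' i z) = (ε : ℂ) •
        ((((√t : ℝ) : ℂ) • u i z) * (k i z)⁻¹ * (((√t : ℝ) : ℂ) • u i z)ᴴ * h' i z) := by
      simp only [conjTranspose_smul, star_def, conj_ofReal, Matrix.smul_mul, Matrix.mul_smul,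
        smul_smul, ← ofReal_mul, Real.mul_self_sqrt t0.le]
    rw [HK_pull H' hv (nv i z hz) hz, e i z hz, b, fm]
    generalize ((√t : ℝ) : ℂ) • u i z = v at d ⊢
    simp only [Matrix.mul_smul, Matrix.smul_mul, Matrix.mul_sub, Matrix.sub_mul, Matrix.mul_one,
      nonsing_inv_mul _ d, Matrix.mul_assoc, nonsing_inv_mul_cancel_left _ _ d]
  · exact (cn_congr (eventually_of_mem (isOpen_ball.mem_nhds hz) fun x hx =>
      un_gram (L.ne j i x hx) (s1 j).le _)).self_of_nhds.trans (cn_smul (ofReal_ne_zero.2 (s1 j).ne')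
        (MetAt.df (met (H j) hz i)) (pd_ne ((H j).pos i z hz)))

/-- the limit on one atlas -/
theorem clo_fin [Nonempty C] (key : KEY A) (hn : 0 < n) (hw : Tw A l w) (cw : CvF A ws w)
    (H : ∀ j, A.MtM ∞ (gs j) (hs j)) (Ks : ∀ j, A.MtM ∞ (gs j) (ks j))
    (E : ∀ j, Eqn A (ws j) (as j) (ks j) (hs j) (ec A g) (εs j))
    (T : ∀ j, εs j * A.int (fun i z => A.ρ i z * nq (ks j i z) (hs j i z) 1) = εs j * (n * A.vol))
    (s0 : ∀ j, 0 < s j) (s2 : ∀ j, ∃ i z, ‖z‖ < 1 ∧ nq (ks j i z) (hs j i z) 1 = s j)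
    (ha : Hig A l g a) (K : A.MtM ∞ g k) (st : Stab A g a) (cg : CvC A gs g) (ca : CvF A as a)
    (ck : CvF A ks k) (e0 : ∀ j, 0 ≤ εs j) (tε : Tendsto εs atTop (𝓝 ε))
    (tm : Tendsto (fun j => εs j * s j) atTop (𝓝 m)) (ha' : Hig A l g' a') (hh : A.MtM 1 g' h')
    (L : Lim A gs as hs Φ g' a' h') (hu : A.Hl u)
    (cu : CvF A (fun j i z => un (s j)⁻¹ (Φ j i z)) u) :
    ∃ (s' : ℕ → ℝ) (h : Fm A (Mn n)), (∀ j, 0 < s' j) ∧ (∀ j, 0 < εs j → s' j = 1) ∧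
      A.MtM ∞ g h ∧ Eqn A w a k h (ec A g) ε ∧ CvF A (fun j i z => (s' j : ℂ) • hs j i z) h ∧
      CvF A (fun j i => cn (hs j i)) fun i => cn (h i) := by
  have hom := hom_lim L cg ca hu cu
  obtain ⟨H', e'⟩ := eqn_lim hw cw H ha'.hol hh L K ck E s0 tε tm hu cu
  have ct := (sm_nq K H' hu).ct
  have q : ∀ i, ∀ z ∈ ball (0 : ℂ) A.R, Cq (fun j z => (s j)⁻¹ * nq (ks j i z) (hs j i z) 1) z
      (nq (k i z) (h' i z) (u i z)) := fun i z hz =>
    ((ck.cq K.sm.ct hz i).nq (pd_ne (K.pos i z hz)) (L.ch.cq hh.sm.ct hz i)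
      (cu.cq (hl_ct hu) hz i)).congr' isOpen_ball hz fun j x hx =>
        un_nq (L.ne j i x hx) (inv_pos.2 (s0 j)).le _ _
  obtain ⟨i0, z0, z1, ne⟩ : ∃ i z, ‖z‖ < 1 ∧ nq (k i z) (h' i z) (u i z) ≠ 0 := by
    obtain ⟨j, hj⟩ := ((cvF_of ct q).near A.hR one_pos).exists
    obtain ⟨i, z, p, p'⟩ := s2 j
    refine ⟨i, z, p, fun b => ?_⟩
    have := hj i z p.le
    rw [b, p', inv_mul_cancel₀ (s0 j).ne', dist_zero_left, norm_one] at this
    exact lt_irrefl _ this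
  have tI := (cvF_of (us := fun j i z => A.ρ i z * ((s j)⁻¹ * nq (ks j i z) (hs j i z) 1))
    (ct_ρ_mul ct) fun i z hz => Tendsto.mul (cq_const (sm_ρ.ct.at hz i)) (q i z hz)).int
      fun j => ct_ρ_mul (ct_cmul _ (sm_nq (Ks j) (H j) hl_one).ct)
  simp only [mul_left_comm (A.ρ _ _), int_mul] at tI
  have I0 := int_pos (ct_ρ_mul ct) (fun i z hz => mul_nonneg (ρ_pos (mem_of_le hz.le)).le
    (nq_nonneg (K.pos i z (mem_of_le hz.le)) (H'.pos i z (mem_of_le hz.le)) _)) z1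
      (mul_ne_zero (ρ_pos (mem_of_le z1.le)).ne' ne)
  have V0 : 0 < n * A.vol := mul_pos (Nat.cast_pos.2 hn) vol_pos
  have hm := tendsto_nhds_unique (tm.mul tI) ((tε.mul_const (n * A.vol)).congr fun j => by
    rw [← T j, mul_assoc, mul_inv_cancel_left₀ (s0 j).ne'])
  have nu : ∀ i, ∀ z ∈ ball (0 : ℂ) A.R, (u i z).det ≠ 0 := fun i z hz b => by
    obtain ⟨x, b1, b2⟩ := (((P275KR.hurwitz_det isOpen_ball (cu i) (Eventually.of_forall fun j =>
      ⟨hl_un (L.an j) (L.ne j) _ i, fun x hx => un_det (L.ne j i x hx) (inv_pos.2 (s0 j))⟩) hz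
        b).filter_mono nhdsWithin_le_nhds).and (key_step key hn hw ha ha' K H' hom st
          (ge_of_tendsto' tε e0) e' hm ⟨i0, z0, mem_of_le z1.le, fun b => ne (by
            rw [b, nq, Matrix.mul_zero, trace_zero, zero_re])⟩ i hz)).exists
    exact b2 b1
  generalize A.int (fun i z => A.ρ i z * nq (k i z) (h' i z) (u i z)) = I at tI I0 hm
  obtain rfl : ε * (n * A.vol / I) = m := by rw [← mul_div_assoc, ← hm, mul_div_cancel_right₀ _ I0.ne']
  have t0 := div_pos V0 I0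
  have s1 : ∀ j, 0 < if 0 < εs j then 1 else n * A.vol / I * (s j)⁻¹ := fun j => by
    split_ifs
    exacts [one_pos, mul_pos t0 (inv_pos.2 (s0 j))]
  obtain ⟨h, b⟩ := clo_end hw H K H' L hom nu s0 cu t0 s1 ((Tendsto.if' (p := fun j => 0 < εs j)
    (tendsto_const_nhds.div tI I0.ne') tendsto_const_nhds).congr fun j => by
      split_ifs with p
      · rw [Pi.div_apply, mul_left_cancel₀ p.ne' (T j), one_mul, mul_comm (s j)⁻¹, ← div_div,
          div_self V0.ne', one_div, inv_inv]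
      · rw [inv_mul_cancel_right₀ (s0 j).ne']) e'
  exact ⟨_, h, s1, fun j p => if_pos p, b⟩

/-- **closedness** -/
theorem clo [Nonempty C] (A : At C) (cpt : CPT A) (key : ∀ r h1 h2, KEY (A.res r h1 h2)) :
    CLO A := by
  intro n ls ws l w gs as ks hs g a k εs ε M hn T H ha K st cg ca ck tε r h1 h2
  choose s s0 s1 s2 s3 using fun j => apriori hn (H j).1.cc (H j).2.2.1 (H j).2.1 (H j).2.2.2.2.2.1
    (H j).2.2.2.2.1 (H j).2.2.2.2.2.2
  have e0 := fun j => (H j).2.2.2.2.1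
  obtain ⟨E, hE⟩ := tε.bddAbove_range
  have e1 : ∀ j, εs j ≤ E := fun j => hE ⟨j, rfl⟩
  have n0 : (0 : ℝ) ≤ n := Nat.cast_nonneg n
  obtain ⟨B, B0, b1, b2⟩ : ∃ B : ℝ, 0 ≤ B ∧ (∀ j, |ec A g + εs j| ≤ B) ∧ ∀ j, εs j * s j ≤ B := by
    have E0 := (e0 0).trans (e1 0)
    have p : 0 ≤ n * (|ec A g| + E + |M|) := by positivity
    refine ⟨n * (|ec A g| + E + |M|) + (|ec A g| + E), by positivity, fun j => ?_, fun j => ?_⟩
    · linarith [abs_add_le (ec A g) (εs j), abs_of_nonneg (e0 j), e1 j]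
    · linarith [s3 j, mul_le_mul_of_nonneg_left (e1 j) n0, abs_nonneg (ec A g)]
  obtain ⟨m, -, σ0, hσ0, tm⟩ := isCompact_Icc.tendsto_subseq (x := fun j => εs j * s j)
    fun j => ⟨mul_nonneg (e0 j) (s0 j).le, b2 j⟩
  obtain ⟨M1, -, hM1⟩ := ca.bdd (fun j => hl_ct (H j).1.hol) A.hR
  obtain ⟨M2, -, hM2⟩ := coeff_bd (n := Fin n) M1
  obtain ⟨σ1, Φ, g', a', h', hσ1, ha', hh, L, -⟩ := cpt n _ _ l w (fun j => gs (σ0 j))
    (fun j => as (σ0 j)) (fun j => hs (σ0 j)) (max ((n + 2) * B) M2) (T.sub' hσ0)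
    (fun j => ⟨(H _).1, (H _).2.1⟩) (fun j i z hz => (HK_le (H _).2.2.1 (H _).2.1 (H _).2.2.2.2.2.1
      (e0 _) (s1 _) (b1 _) (b2 _) i hz).trans (pow_le_pow_left₀
        (mul_nonneg (by positivity) (ρ_pos hz).le)
        (mul_le_mul_of_nonneg_right (le_max_left _ _) (ρ_pos hz).le) 2))
    (fun j i z hz q => (hM2 _ (hM1 _ i z (mem_ball_zero_iff.1 hz).le) q).trans (le_max_right _ _))
    r h1 h2
  obtain ⟨Mk, -, hMk⟩ := ck.bdd (fun j => (H j).2.2.1.sm.ct) h2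
  obtain ⟨c0, C0, c1, bt⟩ := L.bt
  obtain ⟨K0, K1, hK⟩ := norm_le_nq (m := Fin n) (n := Fin n) c0 Mk c1
  obtain ⟨σ2, u, hσ2, hu, cu⟩ := montel_fm (A := A.res r h1 h2.le)
    (U := fun j i z => un (s (σ0 (σ1 j)))⁻¹ (Φ j i z)) (fun j => hl_un (L.an j) (L.ne j) _)
    (Real.sqrt_nonneg K0) fun j i z hz => by
      have hz' := ball_subset_ball h2.le hz
      refine Real.le_sqrt_of_sq_le ((hK C0 _ _ _ ((H (σ0 (σ1 j))).2.2.1.pos i z hz')
        (hMk _ i z (mem_ball_zero_iff.1 hz).le) (bt j i z hz)).trans (mul_le_of_le_one_right K1 ?_))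
      exact (un_nq (L.ne j i z hz) (inv_pos.2 (s0 _)).le _ _).trans_le
        (inv_mul_le_one_of_le₀ (s1 _ i z hz') (s0 _).le)
  have hσ := hσ1.comp hσ2
  have hτ := hσ0.comp hσ
  obtain ⟨s', h, p1, p2, p3, p4, p5, p6⟩ := clo_fin (A := A.res r h1 h2.le) (key r h1 h2.le) hn
    T.lim.res (T.cw.sub' hτ).res (fun j => (H _).2.1.res) (fun j => (H _).2.2.1.res)
    (εs := fun j => εs (σ0 (σ1 (σ2 j)))) (fun j => by rw [res_ec]; exact (H _).2.2.2.2.2.1.res)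
    (fun j => int_tr (H _).1.cc.res (H _).2.2.1.res (H _).2.1.res (H _).2.2.2.2.2.1.res (by
      rw [res_degM, (H _).2.2.2.1, ← ec_eq hn, vol, res_ρ,
        res_int (A := A) (h1 := h1) (h2 := h2.le) A.ρ, vol]))
    (s := fun j => s (σ0 (σ1 (σ2 j)))) (fun j => s0 _) (fun j => s2 _) ha.res K.res (Stab.res ha st)
    (cg.sub' hτ).res (ca.sub' hτ).res (ck.sub' hτ).res (fun j => e0 _)
    (tε.comp hτ.tendsto_atTop) (tm.comp hσ.tendsto_atTop) ha' hh (L.sub' hσ2) hu cu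
  obtain ⟨q1, q2⟩ := mtm_xt ha.cc p3
  have q3 : ∀ i, ∀ z ∈ ball (0 : ℂ) r, A.xt (mT A g) h i =ᶠ[𝓝 z] h i := fun i z hz =>
    eventually_of_mem (isOpen_ball.mem_nhds hz) (q2 i)
  refine ⟨_, s', _, hτ, p1, p2, q1, eqn_unit chg T.lim ha K q1 fun i z hz => ?_,
    fun i => (p5 i).congr_right fun z hz => (q2 i z hz).symm,
    fun i => (p6 i).congr_right fun z hz => (cn_congr (q3 i z hz)).self_of_nhds.symm⟩
  have hz' := mem_ball_zero_iff.2 (hz.trans h1)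
  have := p4 i z hz'
  rw [res_ρ, res_ec] at this
  rw [q2 i z hz', ← this]
  exact hk_congr (q3 i z hz') rfl

end Vale.Agent.P275NA
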