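import Vale.Agent.P275NA.Clo
import Vale.Agent.P275TR.Wmf

/-!
P275 (helper18): existence of Hermitian-Einstein metrics from openness and closedness.
-/

set_option linter.all false

open scoped Matrix.Norms.Operator Topology ComplexOrder ContDiff ComplexConjugate
open Filter Set Matrix Complex Metric MeasureTheory
open Vale.Agent.P281Z.Hm
open Vale.Agent.P275GC Vale.Agent.P275GC.At Vale.Agent.P275HK

noncomputable section

namespace Vale.Agent.P275NA

theorem pd_sub {n : Type} [Fintype n] [DecidableEq n] {h X : Mx n} (hh : h.PosDef)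
    (e : ad h h X = X) (b : nq h h X < 1) : (h * (1 - X)).PosDef := by
  obtain ⟨Q, hQ, rfl⟩ := ex_sq hh
  rw [nq_sq hQ] at b
  rw [ad_sq hQ] at e
  have e1 : (Q * X * Q⁻¹)ᴴ = Q * X * Q⁻¹ := by
    conv_rhs => rw [← e]
    simp only [Matrix.mul_assoc, mul_nonsing_inv _ hQ, Matrix.mul_one,
      mul_nonsing_inv_cancel_left _ _ hQ]
  have e2 : Qᴴ * Q * (1 - X) = Qᴴ * (1 - Q * X * Q⁻¹) * Q := by
    simp only [Matrix.mul_sub, Matrix.sub_mul, Matrix.mul_one, Matrix.mul_assoc,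
      nonsing_inv_mul _ hQ]
  rw [e2]
  generalize Q * X * Q⁻¹ = Y at b e1
  refine gram_pd ?_ (unit_inj hQ.ne_zero)
  have p1 := P275TR.le_of_trace (posSemidef_conjTranspose_mul_self Y) (C := fs Y)
    (by rw [tr_fs, ofReal_re])
  have p2 : (((1 - fs Y : ℝ) : ℂ) • (1 : Mx n)).PosDef := PosDef.one.smul (zero_lt_real.2 (sub_pos.2 b))
  have p3 := ((p2.add_posSemidef p1).add_posSemidef
    (posSemidef_conjTranspose_mul_self (1 - Y))).smul (show (0 : ℂ) < 2⁻¹ by norm_num)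
  convert p3 using 1
  simp only [conjTranspose_sub, conjTranspose_one, e1, Matrix.mul_sub, Matrix.sub_mul,
    Matrix.mul_one, Matrix.one_mul, ofReal_sub, ofReal_one]
  module

variable {C : Type} [TopologicalSpace C] {A : At C} {n : ℕ} {l : Cy A ℂ} {w : Fm A ℝ}
  {g : Cy A (Mn n)} {a h k : Fm A (Mn n)} {c : ℝ}

theorem tlu_const {F : Type} [UniformSpace F] (f : ℂ → F) (U : Set ℂ) :
    TendstoLocallyUniformlyOn (fun _ : ℕ => f) f atTop U := fun V hV x _ =>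
  ⟨univ, univ_mem, Eventually.of_forall fun _ y _ => refl_mem_uniformity hV⟩

theorem Tw.cvT (hw : Tw A l w) : CvT A (fun _ => l) (fun _ => w) l w := by
  refine ⟨fun _ => hw, hw, fun _ _ => tlu_const _ _, fun _ => tlu_const _ _, ?_⟩
  obtain ⟨M, -, hM⟩ := Ct.bdd (A := A) (u := fun i => lp fun x => Real.log (w i x)) (fun i z hz =>
    (P275DG.cd_lp ((hw.sm.at hz i).log (hw.pos i z hz).ne')).continuousAt.continuousWithinAt) A.hR
  exact ⟨M, fun _ i z hz => hM i z (mem_ball_zero_iff.1 hz).le⟩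

variable [T2Space C]

theorem HK_ex_bd (hw : Tw A l w) (ha : A.Hl a) (H : A.MtM ∞ g h) : ∃ M : ℝ, ∀ i,
    ∀ z ∈ ball (0 : ℂ) 1, nq (h i z) (h i z) (HK A w a h i z) ≤ (M * A.ρ i z) ^ 2 := by
  obtain ⟨M, M0, hM⟩ := Ct.bdd (A := A) (u := fun i z => nq (h i z) (h i z) (HK A w a h i z))
    (fun i z hz => (cd_nq (H.sm.at hz i) (pd_ne (H.pos i z hz)) (H.sm.at hz i)
      ((sm_HK hw ha H).at hz i)).continuousAt.continuousWithinAt) A.hR
  obtain ⟨c, c0, hc⟩ := (sm_ρ (A := A)).ct.low (fun _ _ => ρ_pos) A.hR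
  refine ⟨(M + 1) / c, fun i z hz => ?_⟩
  have z1 := (mem_ball_zero_iff.1 hz).le
  have b : M + 1 ≤ (M + 1) / c * A.ρ i z := by
    rw [div_mul_eq_mul_div, le_div_iff₀ c0]
    exact mul_le_mul_of_nonneg_left (hc i z z1) (by positivity)
  nlinarith [(le_abs_self _).trans (hM i z z1), pow_le_pow_left₀ (by positivity) b 2]

/-- the starting point of the continuity method -/
theorem ex_start (hw : Tw A l w) (ha : Hig A l g a) (H : A.MtM ∞ g h) (c : ℝ) :
    ∃ (k : Fm A (Mn n)) (ε : ℝ), 0 < ε ∧ A.MtM ∞ g k ∧ Eqn A w a k h c ε := by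
  set K : Fm A (Mn n) := fun i z => (((A.ρ i z)⁻¹ : ℝ) : ℂ) • HK A w a h i z - (c : ℂ) • 1 with hK
  have sm : A.Sm ∞ K := fun i z hz => (((P275HK.cd_ofReal ((sm_ρ.at hz i).inv (ρ_pos hz).ne')).smul
    ((sm_HK hw ha.hol H).at hz i)).sub contDiffAt_const).contDiffWithinAt
  have tr : ∀ i j, ∀ z ∈ A.O i j, K i z = g i j z * K j (A.tr i j z) * (g i j z)⁻¹ := fun i j z hz => by
    simp only [hK, HK_tr chg hw ha H hz, dn_ρ i j z hz, smul_eq_mul, Matrix.mul_sub, Matrix.sub_mul,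
      Matrix.mul_smul, Matrix.smul_mul, Matrix.mul_one, mul_nonsing_inv _ (dne ha.cc hz).isUnit,
      smul_smul, ← ofReal_mul, _root_.mul_inv_rev, inv_mul_cancel_right₀ (normSq_pos.2 (d_ne hz)).ne']
  obtain ⟨M, M0, hM⟩ := Ct.bdd (A := A) (u := fun i z => nq (h i z) (h i z) (K i z))
    (fun i z hz => (cd_nq (H.sm.at hz i) (pd_ne (H.pos i z hz)) (H.sm.at hz i)
      (sm.at hz i)).continuousAt.continuousWithinAt) A.hR
  have e0 : 0 < M + 1 := by positivity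
  have pd : ∀ i, ∀ z ∈ ball (0 : ℂ) A.R, (h i z * (1 - (((M + 1)⁻¹ : ℝ) : ℂ) • K i z)).PosDef :=
    fun i z hz => pd_sub (H.pos i z hz) (by
      simp only [hK, ad_smul, ad_sub, conj_ofReal, ad_one (pd_det (H.pos i z hz)), HK,
        ad_hk (met H hz i)]) (by
      obtain ⟨j, p, q⟩ := ex_unit hz i
      rw [nq_smul, tr i j z p, nq_tr ha.cc H H p, norm_real, Real.norm_eq_abs, sq_abs, inv_pow,
        inv_mul_lt_one₀ (by positivity)]
      nlinarith [(le_abs_self _).trans (hM j _ q.le)])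
  have nf : ∀ i, ∀ z ∈ ball (0 : ℂ) A.R, (1 - (((M + 1)⁻¹ : ℝ) : ℂ) • K i z).det ≠ 0 :=
    fun i z hz b => pd_ne (pd i z hz) (by rw [Matrix.det_mul, b, mul_zero])
  refine ⟨fun i z => h i z * (1 - (((M + 1)⁻¹ : ℝ) : ℂ) • K i z)⁻¹, M + 1, e0, ⟨fun i z hz => ?_,
    fun i z hz => ?_, fun i j z hz => ?_⟩, fun i z hz => ?_⟩
  · exact (cd_mul (H.sm.at hz i) (cd_inv (contDiffAt_const.sub ((sm.at hz i).const_smul _))
      (nf i z hz))).contDiffWithinAt
  · have p := H.pos i z hz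
    have := gram_pd (pd i z hz).inv (unit_inj (pd_ne p))
    rwa [p.isHermitian.eq, Matrix.mul_inv_rev, ← Matrix.mul_assoc,
      nonsing_inv_mul_cancel_right _ _ (pd_det p)] at this
  · have u := (dne ha.cc hz).isUnit
    have b : 1 - (((M + 1)⁻¹ : ℝ) : ℂ) • K i z =
        g i j z * (1 - (((M + 1)⁻¹ : ℝ) : ℂ) • K j (A.tr i j z)) * (g i j z)⁻¹ := by
      simp only [tr i j z hz, Matrix.mul_sub, Matrix.sub_mul, Matrix.mul_smul, Matrix.smul_mul,
        Matrix.mul_one, mul_nonsing_inv _ u]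
    simp only [b, H.tr i j z hz, Matrix.mul_inv_rev, nonsing_inv_nonsing_inv _ u, Matrix.mul_assoc,
      nonsing_inv_mul _ u, Matrix.mul_one]
  · rw [Matrix.mul_inv_rev, nonsing_inv_nonsing_inv _ (nf i z hz).isUnit,
      nonsing_inv_mul_cancel_right _ _ (pd_det (H.pos i z hz)), smul_sub (((M + 1 : ℝ)) : ℂ),
      smul_smul, ← ofReal_mul, mul_inv_cancel₀ e0.ne', ofReal_one, one_smul, ofReal_add c,
      add_smul, add_sub_assoc, sub_sub_cancel, hK]
    simp only [add_sub_cancel, smul_smul, ← ofReal_mul, mul_inv_cancel₀ (ρ_pos hz).ne', ofReal_one,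
      one_smul]

/-- **Hitchin-Simpson** from openness and closedness -/
theorem ex (A : At C) (op : OPEN A) (cl : CLO A) : EX A := by
  intro n l w g a hn hw ha st
  obtain ⟨k, ε0, e0, K, E0⟩ := ex_start hw ha ha.cc.mtM (ec A g)
  obtain ⟨M, hM⟩ := HK_ex_bd hw ha.hol K
  set S := {ε : ℝ | 0 ≤ ε ∧ ∃ h, A.MtM ∞ g h ∧ Eqn A w a k h (ec A g) ε}
  have hc : IsClosed S := IsSeqClosed.isClosed fun εs ε hs t => by
    choose h0 hs H E using hs
    obtain ⟨r, r1, r2⟩ := exists_between A.hR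
    obtain ⟨-, -, h, -, -, -, b1, b2, -⟩ := cl n _ _ l w (fun _ => g) (fun _ => a) (fun _ => k) hs g a
      k εs ε M hn hw.cvT (fun j => ⟨ha, H j, K, rfl, h0 j, E j, fun _ => hM⟩) ha K st
      (fun _ _ => tlu_const _ _) (fun _ => tlu_const _ _) (fun _ => tlu_const _ _) t r r1 r2
    exact ⟨ge_of_tendsto' t h0, h, b1, b2⟩
  have bd : BddBelow S := ⟨0, fun _ b => b.1⟩
  obtain ⟨p, h, H, E⟩ := hc.csInf_mem ⟨ε0, e0.le, _, ha.cc.mtM, E0⟩ bd
  rcases p.eq_or_lt with p | p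
  · exact ⟨h, H, he_iff.2 (p ▸ E)⟩
  · obtain ⟨x, ⟨b1, b2⟩, b3⟩ := ((((op n l w g a k h _ _ hw ha K H p E).and
      (lt_mem_nhds p)).filter_mono nhdsWithin_le_nhds).and
        (self_mem_nhdsWithin (s := Iio (sInf S)))).exists
    exact absurd (csInf_le bd ⟨b2.le, b1⟩) (not_le.2 b3)

end Vale.Agent.P275NA
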